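import Vale.Agent.P125.MathlibUsed
import Vale.Agent.P125.Defs

set_option linter.all false

section

section

/-!
# P125 : chains given by partial injections
-/

namespace P125

open Finset

section MapChain

variable {U : Type} [Fintype U] [DecidableEq U] {L : Type} [Fintype L]

/-- transition matrix of the chain: choose a uniform label and apply the corresponding map -/
noncomputable def mapChain (m : L → U → U) : Matrix U U ℝ :=
  fun u v => (Fintype.card L : ℝ)⁻¹ * ∑ l, if m l u = v then (1 : ℝ) else 0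

theorem mapChain_nonneg (m : L → U → U) (u v : U) : 0 ≤ mapChain m u v := by
  unfold mapChain
  refine mul_nonneg (by positivity) (Finset.sum_nonneg fun l _ => ?_)
  split_ifs <;> norm_num

theorem mapChain_mulVec (m : L → U → U) (h : U → ℝ) (u : U) :
    (mapChain m).mulVec h u = (Fintype.card L : ℝ)⁻¹ * ∑ l, h (m l u) := by
  unfold Matrix.mulVec dotProduct mapChain
  simp_rw [mul_assoc, ← Finset.mul_sum, Finset.sum_mul]
  rw [Finset.sum_comm]
  congr 1
  refine Finset.sum_congr rfl fun l _ => ?_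
  simp only [ite_mul, one_mul, zero_mul, sum_ite_eq, mem_univ, ↓reduceIte]

theorem mapChain_pow_nonneg (m : L → U → U) (n : ℕ) (u v : U) : 0 ≤ (mapChain m ^ n) u v := by
  induction n generalizing u v with
  | zero =>
    rw [pow_zero, Matrix.one_apply]
    split_ifs <;> norm_num
  | succ n ih =>
    rw [pow_succ, Matrix.mul_apply]
    exact Finset.sum_nonneg fun w _ => mul_nonneg (ih u w) (mapChain_nonneg m w v)

theorem mapChain_pow_mulVec_nonneg (m : L → U → U) (n : ℕ) (h : U → ℝ) (hh : ∀ u, 0 ≤ h u)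
    (u : U) : 0 ≤ (mapChain m ^ n).mulVec h u :=
  Finset.sum_nonneg fun w _ => mul_nonneg (mapChain_pow_nonneg m n u w) (hh w)

theorem mapChain_pow_succ_mulVec (m : L → U → U) (n : ℕ) (h : U → ℝ) (u : U) :
    (mapChain m ^ (n + 1)).mulVec h u =
      (Fintype.card L : ℝ)⁻¹ * ∑ l, (mapChain m ^ n).mulVec h (m l u) := by
  rw [pow_succ', ← Matrix.mulVec_mulVec, mapChain_mulVec]

theorem mapChain_isStatRev [Nonempty U] [Nonempty L] (m : L → U → U)
    (hsymm : ∀ u v, (∑ l, if m l u = v then (1 : ℝ) else 0) = ∑ l, if m l v = u then (1 : ℝ) else 0) :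
    IsStatRevChain (fun _ : U => (Fintype.card U : ℝ)⁻¹) (mapChain m) := by
  have hU : (Fintype.card U : ℝ) ≠ 0 := by
    exact_mod_cast Fintype.card_ne_zero
  have hL : (Fintype.card L : ℝ) ≠ 0 := by
    exact_mod_cast Fintype.card_ne_zero
  refine ⟨fun i => by positivity, ?_, fun i j => mapChain_nonneg m i j, ?_, ?_⟩
  · rw [Finset.sum_const, Finset.card_univ, nsmul_eq_mul, mul_inv_cancel₀ hU]
  · intro i
    have := mapChain_mulVec m (fun _ => (1 : ℝ)) i
    unfold Matrix.mulVec dotProduct at this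
    simp only [mul_one] at this
    rw [this, Finset.sum_const, Finset.card_univ, nsmul_eq_mul, mul_one, inv_mul_cancel₀ hL]
  · intro i j
    unfold mapChain
    rw [hsymm i j]

theorem moment_mapChain {W : Type*} [AddCommGroup W] (N : W → ℝ) (p : ℝ) (m : L → U → U)
    (f : U → W) (t : ℕ) :
    moment N p (fun _ : U => (Fintype.card U : ℝ)⁻¹) (mapChain m) f t =
      (Fintype.card U : ℝ)⁻¹ * ∑ u, (mapChain m ^ t).mulVec (fun w => N (f w - f u) ^ p) u := by
  unfold moment Matrix.mulVec dotProduct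
  rw [Finset.mul_sum]
  refine Finset.sum_congr rfl fun u _ => ?_
  rw [Finset.mul_sum]
  refine Finset.sum_congr rfl fun v _ => ?_
  ring

end MapChain

section PartialInjections

variable {U : Type} [Fintype U] [DecidableEq U] {d : ℕ}

/-- the partial move with label `l` -/
def mv (T : Fin d → (U ≃. U)) (l : Fin d × Bool) (u : U) : Option U :=
  if l.2 then T l.1 u else (T l.1).symm u

/-- the total move with label `l` : stay if undefined -/
def mvD (T : Fin d → (U ≃. U)) (l : Fin d × Bool) (u : U) : U := (mv T l u).getD u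

theorem mv_inj (T : Fin d → (U ≃. U)) (l : Fin d × Bool) {u u' w : U}
    (h : mv T l u = some w) (h' : mv T l u' = some w) : u = u' := by
  unfold mv at h h'
  split_ifs at h h' with hl
  · exact (T l.1).inj h h'
  · exact (T l.1).symm.inj h h'

theorem mv_flip (T : Fin d → (U ≃. U)) (s : Fin d) (b : Bool) {u w : U} :
    mv T (s, b) u = some w ↔ mv T (s, !b) w = some u := by
  unfold mv
  cases b
  · simp only [Bool.not_false, if_true, Bool.false_eq_true, if_false]
    exact (T s).symm_symm ▸ ((T s).symm.mem_iff_mem (a := u) (b := w)).symm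
  · simp only [Bool.not_true, if_true, Bool.false_eq_true, if_false]
    exact ((T s).mem_iff_mem (a := u) (b := w)).symm

theorem mvD_symm (T : Fin d → (U ≃. U)) (u v : U) :
    (∑ l, if mvD T l u = v then (1 : ℝ) else 0) = ∑ l, if mvD T l v = u then (1 : ℝ) else 0 := by
  classical
  let e : Fin d × Bool ≃ Fin d × Bool := Equiv.prodCongr (Equiv.refl _) Equiv.boolNot
  by_cases huv : u = v
  · subst huv; rfl
  rw [← Equiv.sum_comp e (fun l => if mvD T l v = u then (1 : ℝ) else 0)]
  refine Finset.sum_congr rfl fun l _ => ?_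
  obtain ⟨s, b⟩ := l
  have he : e (s, b) = (s, !b) := rfl
  rw [he]
  have key : ∀ (l : Fin d × Bool) (x y : U), x ≠ y → (mvD T l x = y ↔ mv T l x = some y) := by
    intro l x y hxy
    unfold mvD
    cases h : mv T l x with
    | none => simp [hxy]
    | some w => simp
  have h1 := key (s, b) u v huv
  have h2 := key (s, !b) v u (Ne.symm huv)
  have h3 := mv_flip T s b (u := u) (w := v)
  by_cases h : mvD T (s, b) u = v
  · rw [if_pos h, if_pos (h2.2 (h3.1 (h1.1 h)))]
  · rw [if_neg h, if_neg]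
    intro h'
    exact h (h1.2 (h3.2 (h2.1 h')))

theorem card_symm_none (T : U ≃. U) :
    (univ.filter (fun u => T.symm u = none)).card = (univ.filter (fun u => T u = none)).card := by
  classical
  have h1 : (univ.filter (fun u => T.symm u ≠ none)).card = (univ.filter (fun u => T u ≠ none)).card := by
    symm
    refine Finset.card_bij (fun u hu => (T u).get (by
      rw [Finset.mem_filter] at hu
      exact Option.ne_none_iff_isSome.1 hu.2)) ?_ ?_ ?_
    · intro u hu
      rw [Finset.mem_filter] at hu ⊢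
      refine ⟨Finset.mem_univ _, ?_⟩
      obtain ⟨w, hw⟩ := Option.ne_none_iff_exists'.1 hu.2
      have : T.symm w = some u := (T.mem_iff_mem (a := u) (b := w)).2 hw
      simp only [hw, Option.get_some]
      rw [this]; simp
    · intro u hu u' hu' h
      rw [Finset.mem_filter] at hu hu'
      obtain ⟨w, hw⟩ := Option.ne_none_iff_exists'.1 hu.2
      obtain ⟨w', hw'⟩ := Option.ne_none_iff_exists'.1 hu'.2
      simp only [hw, hw', Option.get_some] at h
      subst h
      exact T.inj hw hw'
    · intro w hw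
      rw [Finset.mem_filter] at hw
      obtain ⟨u, hu⟩ := Option.ne_none_iff_exists'.1 hw.2
      have : T u = some w := (T.mem_iff_mem (a := u) (b := w)).1 hu
      refine ⟨u, ?_, ?_⟩
      · rw [Finset.mem_filter]; exact ⟨Finset.mem_univ _, by rw [this]; simp⟩
      · simp [this]
  have h2 := Finset.card_filter_add_card_filter_not (s := (univ : Finset U)) (fun u => T.symm u = none)
  have h3 := Finset.card_filter_add_card_filter_not (s := (univ : Finset U)) (fun u => T u = none)
  simp only [ne_eq] at h1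
  omega

/-- probability that the next `n` moves are not blocked and have consecutive distinct letters,
the previous letter being `s` -/
noncomputable def good (T : Fin d → (U ≃. U)) : ℕ → Fin d → U → ℝ
  | 0, _, _ => 1
  | n + 1, s, u => (Fintype.card (Fin d × Bool) : ℝ)⁻¹ *
      ∑ l : Fin d × Bool, if l.1 ≠ s ∧ mv T l u ≠ none then good T n l.1 (mvD T l u) else 0

theorem good_le_one (T : Fin d → (U ≃. U)) (hd : 0 < d) (n : ℕ) (s : Fin d) (u : U) :
    good T n s u ≤ 1 := by
  induction n generalizing s u with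
  | zero => simp only [good, Std.le_refl]
  | succ n ih =>
    rw [good]
    have : Nonempty (Fin d × Bool) := ⟨(⟨0, hd⟩, true)⟩
    have hL : (0 : ℝ) < (Fintype.card (Fin d × Bool) : ℝ) := by exact_mod_cast Fintype.card_pos
    rw [inv_mul_le_iff₀ hL, mul_one]
    calc _ ≤ ∑ l : Fin d × Bool, (1 : ℝ) := by
          refine Finset.sum_le_sum fun l _ => ?_
          split_ifs
          · exact ih _ _
          · exact zero_le_one
      _ = _ := by simp only [sum_const, card_univ, Fintype.card_prod, Fintype.card_fin, Fintype.card_bool, nsmul_eq_mul, Nat.cast_mul, Nat.cast_ofNat, mul_one]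

theorem sum_one_sub_good_le (T : Fin d → (U ≃. U)) (hd : 0 < d) {η : ℝ} (hη0 : 0 ≤ η)
    (hη : ∀ s, ((univ.filter (fun u => T s u = none)).card : ℝ) ≤ η * Fintype.card U)
    (n : ℕ) (s : Fin d) :
    ∑ u, (1 - good T n s u) ≤ n * (1 / d + η) * Fintype.card U := by
  classical
  induction n generalizing s with
  | zero => simp only [good, sub_self, sum_const_zero, CharP.cast_eq_zero, one_div, zero_mul, Std.le_refl]
  | succ n ih =>
    have hdR : (0 : ℝ) < d := by exact_mod_cast hd
    have hcard : (Fintype.card (Fin d × Bool) : ℝ) = 2 * d := by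
      rw [Fintype.card_prod, Fintype.card_fin, Fintype.card_bool]; push_cast; ring
    -- rewrite
    have h1 : ∀ u, 1 - good T (n + 1) s u = (2 * d : ℝ)⁻¹ * ∑ l : Fin d × Bool,
        (1 - if l.1 ≠ s ∧ mv T l u ≠ none then good T n l.1 (mvD T l u) else 0) := by
      intro u
      rw [good, hcard, Finset.sum_sub_distrib, Finset.sum_const, Finset.card_univ, nsmul_eq_mul,
        hcard]
      field_simp
    simp_rw [h1, ← Finset.mul_sum]
    rw [Finset.sum_comm]
    -- bound for each label
    have h2 : ∀ l : Fin d × Bool, ∑ u, (1 - if l.1 ≠ s ∧ mv T l u ≠ none then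
        good T n l.1 (mvD T l u) else 0) ≤
        (if l.1 = s then (Fintype.card U : ℝ) else 0) +
          (η + n * (1 / d + η)) * Fintype.card U := by
      intro l
      have hpos : 0 ≤ (η + n * (1 / d + η)) * Fintype.card U := by (clear * - hη0 hd; positivity)
      by_cases hls : l.1 = s
      · rw [if_pos hls]
        calc _ ≤ ∑ u : U, (1 : ℝ) := by
              refine Finset.sum_le_sum fun u _ => ?_
              rw [if_neg (by simp [hls])]; simp
          _ = Fintype.card U := by simp only [sum_const, card_univ, nsmul_eq_mul, mul_one]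
          _ ≤ _ := by linarith only [hpos]
      · rw [if_neg hls, zero_add]
        have h3 : ∀ u, (1 - if l.1 ≠ s ∧ mv T l u ≠ none then
            good T n l.1 (mvD T l u) else 0) =
            (if mv T l u = none then (1 : ℝ) else 0) +
              (if mv T l u ≠ none then (1 - good T n l.1 (mvD T l u)) else 0) := by
          intro u
          by_cases hn : mv T l u = none
          · simp [hn]
          · simp [hn, hls]
        simp_rw [h3]
        rw [Finset.sum_add_distrib]
        have h4 : ∑ u, (if mv T l u = none then (1 : ℝ) else 0) ≤ η * Fintype.card U := by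
          rw [← Finset.sum_filter, Finset.sum_const, nsmul_eq_mul, mul_one]
          unfold mv
          by_cases hb : l.2 = true
          · simp only [hb, if_true]; exact hη l.1
          · simp only [hb]
            have := card_symm_none (T l.1)
            simp only [Bool.false_eq_true, if_false]
            rw [this]; exact hη l.1
        have h5 : ∑ u, (if mv T l u ≠ none then (1 - good T n l.1 (mvD T l u)) else 0) ≤
            ∑ u, (1 - good T n l.1 u) := by
          rw [← Finset.sum_filter]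
          have hinj : Set.InjOn (fun u => mvD T l u) (univ.filter (fun u => mv T l u ≠ none)) := by
            intro u hu u' hu' h
            simp only [Finset.coe_filter, Finset.mem_univ, true_and, Set.mem_ofPred_eq] at hu hu'
            obtain ⟨w, hw⟩ := Option.ne_none_iff_exists'.1 hu
            obtain ⟨w', hw'⟩ := Option.ne_none_iff_exists'.1 hu'
            simp only [mvD, hw, hw', Option.getD_some] at h
            subst h
            exact mv_inj T l hw hw'
          rw [← Finset.sum_image (f := fun u => 1 - good T n l.1 u) hinj]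
          refine Finset.sum_le_sum_of_subset_of_nonneg (Finset.subset_univ _) fun u _ _ => ?_
          linarith only [good_le_one T hd n l.1 u]
        have h6 := ih l.1
        linarith
    have h3 : ∑ l : Fin d × Bool, ((if l.1 = s then (Fintype.card U : ℝ) else 0) +
          (η + n * (1 / d + η)) * Fintype.card U) =
          2 * Fintype.card U + 2 * d * ((η + n * (1 / d + η)) * Fintype.card U) := by
      rw [Finset.sum_add_distrib, Finset.sum_const, Finset.card_univ, nsmul_eq_mul, hcard,
        Fintype.sum_prod_type]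
      congr 1
      simp only [Fintype.sum_bool]
      rw [Finset.sum_congr rfl (g := fun i => if i = s then (2 * Fintype.card U : ℝ) else 0)]
      · simp only [sum_ite_eq', mem_univ, ↓reduceIte]
      · intro i _
        split_ifs <;> ring
    calc (2 * d : ℝ)⁻¹ * ∑ l : Fin d × Bool, ∑ u, (1 - if l.1 ≠ s ∧ mv T l u ≠ none then
        good T n l.1 (mvD T l u) else 0)
        ≤ (2 * d : ℝ)⁻¹ * (2 * Fintype.card U + 2 * d * ((η + n * (1 / d + η)) * Fintype.card U)) := by
          rw [← h3]
          exact mul_le_mul_of_nonneg_left (Finset.sum_le_sum fun l _ => h2 l) (by positivity)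
      _ = ((n + 1 : ℕ) : ℝ) * (1 / d + η) * Fintype.card U := by
          push_cast
          field_simp
          ring

/-- Lower bound for the `n`-step expectation in terms of the probability of good paths. -/
theorem good_mul_le (T : Fin d → (U ≃. U)) {W : Type*} [AddCommGroup W]
    (ν : W → ℝ) (hν : ∀ x, 0 ≤ ν x) (f : U → W) (Pr : ℕ → U → Fin d → W → Prop)
    (hstep : ∀ i u s v s' u', Pr i u s v → s' ≠ s → (T s' u = some u' ∨ T s' u' = some u) →
      Pr (i + 1) u' s' (v + (f u' - f u)))
    {t : ℕ} {β : ℝ} (hβ : 0 ≤ β) (hfin : ∀ u s v, Pr t u s v → t * β ≤ ν v) {p : ℝ} (hp : 0 < p)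
    (n i : ℕ) (u : U) (s : Fin d) (v : W) (hPr : Pr i u s v) (hin : i + n = t) :
    good T n s u * (t * β) ^ p ≤
      (mapChain (mvD T) ^ n).mulVec (fun w => ν (v + (f w - f u)) ^ p) u := by
  induction n generalizing i u s v with
  | zero =>
    have hit : i = t := by omega
    subst hit
    rw [pow_zero, Matrix.one_mulVec, good, one_mul, sub_self, add_zero]
    exact Real.rpow_le_rpow (by (clear * - hβ; positivity)) (hfin u s v hPr) hp.le
  | succ n ih =>
    rw [mapChain_pow_succ_mulVec, good, mul_assoc, Finset.sum_mul]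
    refine mul_le_mul_of_nonneg_left (Finset.sum_le_sum fun l _ => ?_) (by positivity)
    split_ifs with hl
    · obtain ⟨hls, hne⟩ := hl
      obtain ⟨u', hu'⟩ := Option.ne_none_iff_exists'.1 hne
      have hu'' : mvD T l u = u' := by simp [mvD, hu']
      rw [hu'']
      have hT : T l.1 u = some u' ∨ T l.1 u' = some u := by
        unfold mv at hu'
        split_ifs at hu'
        · exact Or.inl hu'
        · exact Or.inr (((T l.1).mem_iff_mem (a := u') (b := u)).1 hu')
      have h1 := ih (i + 1) u' l.1 (v + (f u' - f u)) (hstep i u s v l.1 u' hPr hls hT) (by omega)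
      refine h1.trans (le_of_eq ?_)
      congr 1
      funext w
      congr 2
      abel
    · rw [zero_mul]
      exact mapChain_pow_mulVec_nonneg _ _ _ (fun w => Real.rpow_nonneg (hν _) _) _

theorem core_chain [Nonempty U] (T : Fin d → (U ≃. U)) (hd : 0 < d) {W : Type*} [AddCommGroup W]
    (ν : W → ℝ) (hν : ∀ x, 0 ≤ ν x) (hν0 : ν 0 = 0) (hνneg : ∀ x, ν (-x) = ν x)
    (f : U → W) (Pr : ℕ → U → Fin d → W → Prop) (hPr0 : ∀ u s, Pr 0 u s 0)
    (hstep : ∀ i u s v s' u', Pr i u s v → s' ≠ s → (T s' u = some u' ∨ T s' u' = some u) →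
      Pr (i + 1) u' s' (v + (f u' - f u)))
    {t : ℕ} (ht : 1 ≤ t) {β : ℝ} (hβ : 0 ≤ β) (hfin : ∀ u s v, Pr t u s v → t * β ≤ ν v)
    {γ : ℝ} (hγ : 0 ≤ γ) (hsmall : ∀ s u u', T s u = some u' → ν (f u' - f u) ≤ γ)
    {η : ℝ} (hη0 : 0 ≤ η)
    (hη : ∀ s, ((univ.filter (fun u => T s u = none)).card : ℝ) ≤ η * Fintype.card U)
    {p K : ℝ} (hp : 0 < p) (hK : 0 ≤ K) (hM : MarkovIneq ν p K) :
    (1 - t * (1 / d + η)) * (t * β) ^ p ≤ K ^ p * t * γ ^ p := by
  classical
  have hne : Nonempty (Fin d × Bool) := ⟨(⟨0, hd⟩, true)⟩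
  have hU : (0 : ℝ) < Fintype.card U := by exact_mod_cast Fintype.card_pos
  have hL : (0 : ℝ) < Fintype.card (Fin d × Bool) := by exact_mod_cast Fintype.card_pos
  have hchain := mapChain_isStatRev (mvD T) (mvD_symm T)
  have hineq := hM U _ _ hchain f t ht
  rw [moment_mapChain, moment_mapChain] at hineq
  -- lower bound of the left side
  let s0 : Fin d := ⟨0, hd⟩
  have hlow : (1 - t * (1 / d + η)) * (t * β) ^ p ≤
      (Fintype.card U : ℝ)⁻¹ * ∑ u, (mapChain (mvD T) ^ t).mulVec (fun w => ν (f w - f u) ^ p) u := by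
    have h1 : ∀ u, good T t s0 u * (t * β) ^ p ≤
        (mapChain (mvD T) ^ t).mulVec (fun w => ν (f w - f u) ^ p) u := by
      intro u
      have := good_mul_le T ν hν f Pr hstep hβ hfin hp t 0 u s0 0 (hPr0 u s0) (by omega)
      simpa only [ge_iff_le, zero_add] using this
    have h2 := sum_one_sub_good_le T hd hη0 hη t s0
    rw [Finset.sum_sub_distrib, Finset.sum_const, Finset.card_univ, nsmul_eq_mul, mul_one] at h2
    have h3 : (1 - t * (1 / d + η)) * Fintype.card U ≤ ∑ u, good T t s0 u := by linarith only [h2]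
    have h4 : (0 : ℝ) ≤ (t * β) ^ p := by (clear * - ht hβ; positivity)
    rw [le_inv_mul_iff₀ hU]
    calc (Fintype.card U : ℝ) * ((1 - t * (1 / d + η)) * (t * β) ^ p)
        = ((1 - t * (1 / d + η)) * Fintype.card U) * (t * β) ^ p := by ring
      _ ≤ (∑ u, good T t s0 u) * (t * β) ^ p := mul_le_mul_of_nonneg_right h3 h4
      _ = ∑ u, good T t s0 u * (t * β) ^ p := by rw [Finset.sum_mul]
      _ ≤ _ := Finset.sum_le_sum fun u _ => h1 u
  -- upper bound of the right side
  have hup : (Fintype.card U : ℝ)⁻¹ * ∑ u, (mapChain (mvD T) ^ 1).mulVec (fun w => ν (f w - f u) ^ p) u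
      ≤ γ ^ p := by
    rw [inv_mul_le_iff₀ hU]
    have h1 : ∀ u, (mapChain (mvD T) ^ 1).mulVec (fun w => ν (f w - f u) ^ p) u ≤ γ ^ p := by
      intro u
      rw [pow_one, mapChain_mulVec, inv_mul_le_iff₀ hL]
      have h2 : ∀ l : Fin d × Bool, ν (f (mvD T l u) - f u) ^ p ≤ γ ^ p := by
        intro l
        refine Real.rpow_le_rpow (hν _) ?_ hp.le
        cases h : mv T l u with
        | none => simp [mvD, h, hν0, hγ]
        | some w =>
          have hw : mvD T l u = w := by simp [mvD, h]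
          rw [hw]
          unfold mv at h
          split_ifs at h
          · exact hsmall _ _ _ h
          · have : T l.1 w = some u := ((T l.1).mem_iff_mem (a := w) (b := u)).1 h
            have h3 := hsmall _ _ _ this
            rw [← hνneg, neg_sub] at h3
            exact h3
      calc _ ≤ ∑ l : Fin d × Bool, γ ^ p := Finset.sum_le_sum fun l _ => h2 l
        _ = _ := by rw [Finset.sum_const, Finset.card_univ, nsmul_eq_mul]
    calc _ ≤ ∑ u : U, γ ^ p := Finset.sum_le_sum fun u _ => h1 u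
      _ = _ := by rw [Finset.sum_const, Finset.card_univ, nsmul_eq_mul]
  calc _ ≤ _ := hlow
    _ ≤ _ := hineq
    _ ≤ _ := mul_le_mul_of_nonneg_left hup (by (clear * - hK ht; positivity))

end PartialInjections

end P125
end
end

section

section

/-!
# P125 : square waves and the nestedness pattern
-/

namespace P125

open Finset

/-! ### Cumulative values -/

/-- cumulative value at `y` of a finitely supported function -/
noncomputable def cum (y : ℕ) : (ℕ →₀ ℝ) →ₗ[ℝ] ℝ :=
  Finsupp.linearCombination ℝ (fun x => if x ≤ y then (1 : ℝ) else 0)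

/-- total sum of a finitely supported function -/
noncomputable def tot : (ℕ →₀ ℝ) →ₗ[ℝ] ℝ :=
  Finsupp.linearCombination ℝ (fun _ => (1 : ℝ))

theorem cum_single (y x : ℕ) (c : ℝ) :
    cum y (Finsupp.single x c) = if x ≤ y then c else 0 := by
  unfold cum
  rw [Finsupp.linearCombination_single]
  split_ifs <;> simp

theorem tot_single (x : ℕ) (c : ℝ) : tot (Finsupp.single x c) = c := by
  unfold tot
  rw [Finsupp.linearCombination_single]
  simp

theorem cum_succ_sub (y : ℕ) (v : ℕ →₀ ℝ) : cum (y + 1) v - cum y v = v (y + 1) := by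
  have h : cum (y + 1) - cum y = Finsupp.lapply (y + 1) := by
    ext x
    simp only [LinearMap.coe_comp, Function.comp_apply, Finsupp.lsingle_apply,
      LinearMap.sub_apply, cum_single, Finsupp.lapply_apply, Finsupp.single_apply]
    by_cases h1 : x ≤ y
    · rw [if_pos (by omega), if_pos h1, if_neg (by omega)]; simp
    · by_cases h2 : x = y + 1
      · rw [if_pos (by omega), if_neg h1, if_pos h2]; simp
      · rw [if_neg (by omega), if_neg h1, if_neg h2]; simp
  have := congrArg (fun φ => φ v) h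
  simpa only [LinearMap.sub_apply, Finsupp.lapply_apply] using this

theorem cum_zero_eq (v : ℕ →₀ ℝ) : cum 0 v = v 0 := by
  have h : cum 0 = Finsupp.lapply 0 := by
    ext x
    simp only [LinearMap.coe_comp, Function.comp_apply, Finsupp.lsingle_apply,
      cum_single, Finsupp.lapply_apply, Finsupp.single_apply]
    by_cases h1 : x = 0
    · simp [h1]
    · rw [if_neg (by omega), if_neg h1]
  have := congrArg (fun φ => φ v) h
  simpa only [Finsupp.lapply_apply] using this

theorem ext_cum {v w : ℕ →₀ ℝ} (h : ∀ y, cum y v = cum y w) : v = w := by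
  ext y
  cases y with
  | zero => rw [← cum_zero_eq, ← cum_zero_eq, h]
  | succ y => rw [← cum_succ_sub, ← cum_succ_sub, h, h]

/-! ### Alternating sums -/

/-- `alt R = Σ_{j<R} (-1)^j (e_j - e_{j+1})` -/
noncomputable def alt (R : ℕ) : ℕ →₀ ℝ :=
  ∑ j ∈ range R, ((-1 : ℝ) ^ j) • (Finsupp.single j (1 : ℝ) - Finsupp.single (j + 1) (1 : ℝ))

theorem cum_alt (R y : ℕ) : cum y (alt R) = if y < R then (-1 : ℝ) ^ y else 0 := by
  unfold alt
  rw [map_sum]
  have h : ∀ j, cum y (((-1 : ℝ) ^ j) • (Finsupp.single j (1 : ℝ) - Finsupp.single (j + 1) (1 : ℝ)))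
      = if j = y then (-1 : ℝ) ^ j else 0 := by
    intro j
    rw [map_smul, map_sub, cum_single, cum_single]
    by_cases h1 : j = y
    · rw [if_pos (by omega), if_neg (by omega), if_pos h1]; simp only [sub_zero, smul_eq_mul, mul_one]
    · by_cases h2 : j < y
      · rw [if_pos (by omega), if_pos (by omega), if_neg h1]; simp only [sub_self, smul_eq_mul, mul_zero]
      · rw [if_neg (by omega), if_neg (by omega), if_neg h1]; simp only [sub_self, smul_eq_mul, mul_zero]
  simp_rw [h]
  rw [Finset.sum_ite_eq']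
  simp

theorem alt_add (R R' : ℕ) (hR : Even R) :
    alt (R + R') = alt R + (alt R').mapDomain (fun x => R + x) := by
  unfold alt
  rw [Finset.sum_range_add]
  congr 1
  rw [← Finsupp.lmapDomain_apply ℝ ℝ, map_sum]
  refine Finset.sum_congr rfl fun j _ => ?_
  rw [map_smul, map_sub, Finsupp.lmapDomain_apply, Finsupp.lmapDomain_apply,
    Finsupp.mapDomain_single, Finsupp.mapDomain_single, pow_add, hR.neg_one_pow, one_mul, add_assoc]

theorem exists_monotone_push {v : ℕ →₀ ℝ} {R : ℕ} {y : ℕ → ℕ}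
    (hy : ∀ i j, i < j → j < R → y i < y j) {τ : ℝ} (htot : tot v = 0)
    (hv : ∀ j, j < R → cum (y j) v = (-1) ^ j * τ) :
    ∃ α : ℕ → ℕ, Monotone α ∧ v.mapDomain α = τ • alt R := by
  classical
  set α : ℕ → ℕ := fun x => ((range R).filter (fun j => y j < x)).card with hα
  have hαle : ∀ x, α x ≤ R := fun x => by
    have := Finset.card_filter_le (range R) (fun j => y j < x)
    rwa [Finset.card_range] at this
  have hkey : ∀ x j, j < R → (α x ≤ j ↔ x ≤ y j) := by
    intro x j hj
    constructor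
    · intro h
      by_contra hx
      rw [not_le] at hx
      have hsub : range (j + 1) ⊆ (range R).filter (fun j => y j < x) := by
        intro i hi
        rw [Finset.mem_range] at hi
        rw [Finset.mem_filter, Finset.mem_range]
        refine ⟨by omega, ?_⟩
        rcases Nat.lt_or_ge i j with h1 | h1
        · exact (hy i j h1 hj).trans hx
        · have : i = j := by omega
          rw [this]; exact hx
      have := Finset.card_le_card hsub
      rw [Finset.card_range] at this
      simp only [hα] at h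
      omega
    · intro h
      have hsub : (range R).filter (fun j => y j < x) ⊆ range j := by
        intro i hi
        rw [Finset.mem_filter, Finset.mem_range] at hi
        rw [Finset.mem_range]
        by_contra hij
        rw [not_lt] at hij
        rcases Nat.lt_or_ge j i with h1 | h1
        · have := hy j i h1 hi.1
          omega
        · have : i = j := by omega
          rw [this] at hi
          omega
      have := Finset.card_le_card hsub
      rwa [Finset.card_range] at this
  refine ⟨α, ?_, ?_⟩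
  · intro x x' hxx'
    refine Finset.card_le_card ?_
    intro j hj
    rw [Finset.mem_filter] at hj ⊢
    exact ⟨hj.1, by omega⟩
  · refine ext_cum fun j => ?_
    rw [map_smul, cum_alt]
    by_cases hj : j < R
    · rw [if_pos hj]
      have : cum j (v.mapDomain α) = cum (y j) v := by
        unfold cum
        rw [Finsupp.linearCombination_mapDomain]
        congr 2
        funext x
        simp only [Function.comp_apply]
        simp only [hkey x j hj]
      rw [this, hv j hj, smul_eq_mul, mul_comm]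
    · rw [if_neg hj, smul_zero]
      have : cum j (v.mapDomain α) = tot v := by
        unfold cum tot
        rw [Finsupp.linearCombination_mapDomain]
        congr 2
        funext x
        simp only [Function.comp_apply]
        rw [if_pos ((hαle x).trans (by omega))]
      rw [this, htot]

/-! ### Square waves -/

/-- `cidx d s q`: index of the `q`-th cut point belonging to the label `s` (the arcs with label
`s` are `[a (k d + s), a (k d + s + 1))`). -/
def cidx (d s q : ℕ) : ℕ := d * (q / 2) + s + q % 2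

/-- square wave of the label `s` -/
noncomputable def chi (d M s : ℕ) (a : ℕ → ℕ) : ℕ →₀ ℝ :=
  ∑ q ∈ range (2 * M), ((-1 : ℝ) ^ q) • Finsupp.single (a (cidx d s q)) (1 : ℝ)

theorem cidx_even (d s k : ℕ) : cidx d s (2 * k) = d * k + s := by
  unfold cidx
  have h1 : 2 * k / 2 = k := by omega
  have h2 : 2 * k % 2 = 0 := by omega
  rw [h1, h2]; rfl

theorem cidx_odd (d s k : ℕ) : cidx d s (2 * k + 1) = d * k + s + 1 := by
  unfold cidx
  have h1 : (2 * k + 1) / 2 = k := by omega
  have h2 : (2 * k + 1) % 2 = 1 := by omega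
  rw [h1, h2]

theorem cidx_lt {d s : ℕ} (hd : 2 ≤ d) : StrictMono (cidx d s) := by
  refine strictMono_nat_of_lt_succ fun q => ?_
  rcases Nat.even_or_odd' q with ⟨k, hk | hk⟩
  · subst hk
    rw [cidx_even, cidx_odd]; omega
  · subst hk
    have h1 : 2 * k + 1 + 1 = 2 * (k + 1) := by ring
    rw [cidx_odd, h1, cidx_even, Nat.mul_succ]; omega

theorem tot_chi (d M s : ℕ) (a : ℕ → ℕ) : tot (chi d M s a) = 0 := by
  unfold chi
  rw [map_sum]
  simp_rw [map_smul, tot_single, smul_eq_mul, mul_one]
  induction M with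
  | zero => simp only [mul_zero, range_zero, sum_empty]
  | succ M ih =>
    have h1 : 2 * (M + 1) = 2 * M + 1 + 1 := by ring
    rw [h1, Finset.sum_range_succ, Finset.sum_range_succ, ih, pow_succ]
    ring

theorem sum_neg_one_pow (r : ℕ) : ∑ q ∈ range r, (-1 : ℝ) ^ q = if r % 2 = 1 then 1 else 0 := by
  induction r with
  | zero => simp only [range_zero, sum_empty, Nat.zero_mod, zero_ne_one, ↓reduceIte]
  | succ r ih =>
    rw [Finset.sum_range_succ, ih]
    rcases Nat.even_or_odd' r with ⟨k, hk | hk⟩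
    · subst hk
      rw [if_neg (by omega), if_pos (by omega), pow_mul]; simp only [even_two, Even.neg_pow, one_pow, zero_add]
    · subst hk
      rw [if_pos (by omega), if_neg (by omega), pow_succ, pow_mul]; simp only [even_two, Even.neg_pow, one_pow, mul_neg, mul_one, add_neg_cancel]

theorem cum_chi {d M s : ℕ} (hd : 2 ≤ d) {a : ℕ → ℕ} (ha : StrictMono a) {y q : ℕ}
    (hq : q < 2 * M) (h1 : a (cidx d s q) ≤ y) (h2 : q + 1 < 2 * M → y < a (cidx d s (q + 1))) :
    cum y (chi d M s a) = if q % 2 = 0 then 1 else 0 := by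
  unfold chi
  rw [map_sum]
  have h : ∀ r ∈ range (2 * M), cum y (((-1 : ℝ) ^ r) • Finsupp.single (a (cidx d s r)) (1 : ℝ)) =
      if r < q + 1 then (-1 : ℝ) ^ r else 0 := by
    intro r hr
    rw [Finset.mem_range] at hr
    rw [map_smul, cum_single]
    have hmono := (ha.comp (cidx_lt (s := s) hd)).monotone
    by_cases hrq : r < q + 1
    · rw [if_pos hrq, if_pos]
      · simp only [smul_eq_mul, mul_one]
      · exact (hmono (by omega : r ≤ q)).trans h1
    · rw [if_neg hrq, if_neg]
      · simp only [smul_eq_mul, mul_zero]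
      · have h3 := hmono (by omega : q + 1 ≤ r)
        have h4 := h2 (by omega)
        simp only [Function.comp_apply] at h3
        omega
  rw [Finset.sum_congr rfl h, ← Finset.sum_filter]
  have h3 : (range (2 * M)).filter (fun r => r < q + 1) = range (q + 1) := by
    ext r
    rw [Finset.mem_filter, Finset.mem_range, Finset.mem_range]
    omega
  rw [h3, sum_neg_one_pow]
  by_cases hq2 : q % 2 = 0
  · rw [if_pos (by omega), if_pos hq2]
  · rw [if_neg (by omega), if_neg hq2]

/-! ### Compatibility and the pattern -/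

/-- `a'` is obtained from `a` by shifting the marks of label `s` by one -/
def Compat (d M s : ℕ) (a a' : ℕ → ℕ) : Prop :=
  ∀ q, q + 1 < 2 * M → a' (cidx d s q) = a (cidx d s (q + 1))

/-- the pattern after `i` good steps ending in `a`, the last label being `s` -/
structure Pat (d M i : ℕ) (a : ℕ → ℕ) (s : ℕ) (v : ℕ →₀ ℝ) : Prop where
  tot_eq : tot v = 0
  gen : ∀ q, 2 * (d * i) ≤ q → q + 2 * (d * i) < d * M → q % d ≠ s →
    ∀ y, a q ≤ y → y < a (q + 1) → cum y v = i
  spec : ∀ q, 2 * (d * i) ≤ q → q + 2 * (d * i) < d * M → q % d = s →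
    ∃ y, a q ≤ y ∧ y < a (q + 1) ∧ cum y v = -i

theorem pat_zero (d M : ℕ) {a : ℕ → ℕ} (ha : StrictMono a) (s : ℕ) : Pat d M 0 a s 0 := by
  refine ⟨by simp, ?_, ?_⟩
  · intro q _ _ _ y _ _
    simp
  · intro q _ _ _
    exact ⟨a q, le_rfl, ha (Nat.lt_succ_self q), by simp⟩

/-- generic regions of `a'` are special arcs of `a` -/
theorem compat_gen {d M s : ℕ} {a a' : ℕ → ℕ} (h : Compat d M s a a' ∨ Compat d M s a' a)
    {k : ℕ} (hk : k + 2 < M) : ∃ k', (k' = k + 1 ∨ k' = k) ∧
      a' (d * k + s + 1) = a (d * k' + s) ∧ a' (d * (k + 1) + s) = a (d * k' + s + 1) := by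
  rcases h with h | h
  · refine ⟨k + 1, Or.inl rfl, ?_, ?_⟩
    · have := h (2 * k + 1) (by omega)
      rw [cidx_odd, show 2 * k + 1 + 1 = 2 * (k + 1) by ring, cidx_even] at this
      exact this
    · have := h (2 * (k + 1)) (by omega)
      rw [cidx_even, cidx_odd] at this
      exact this
  · refine ⟨k, Or.inr rfl, ?_, ?_⟩
    · have := h (2 * k) (by omega)
      rw [cidx_even, cidx_odd] at this
      exact this.symm
    · have := h (2 * k + 1) (by omega)
      rw [cidx_odd, show 2 * k + 1 + 1 = 2 * (k + 1) by ring, cidx_even] at this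
      exact this.symm

/-- special arcs of `a'` are generic regions of `a` -/
theorem compat_spec {d M s : ℕ} {a a' : ℕ → ℕ} (h : Compat d M s a a' ∨ Compat d M s a' a)
    {k : ℕ} (hk : k + 2 < M) : ∃ k', (k' = k + 1 ∨ k' = k) ∧
      a' (d * (k + 1) + s) = a (d * k' + s + 1) ∧
      a' (d * (k + 1) + s + 1) = a (d * (k' + 1) + s) := by
  rcases h with h | h
  · refine ⟨k + 1, Or.inl rfl, ?_, ?_⟩
    · have := h (2 * (k + 1)) (by omega)
      rw [cidx_even, cidx_odd] at this
      exact this
    · have := h (2 * (k + 1) + 1) (by omega)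
      rw [cidx_odd, show 2 * (k + 1) + 1 + 1 = 2 * (k + 1 + 1) by ring, cidx_even] at this
      exact this
  · refine ⟨k, Or.inr rfl, ?_, ?_⟩
    · have := h (2 * k + 1) (by omega)
      rw [cidx_odd, show 2 * k + 1 + 1 = 2 * (k + 1) by ring, cidx_even] at this
      exact this.symm
    · have := h (2 * (k + 1)) (by omega)
      rw [cidx_even, cidx_odd] at this
      exact this.symm

theorem cum_chi_special {d M s : ℕ} (hd : 2 ≤ d) {a : ℕ → ℕ} (ha : StrictMono a) {y k : ℕ}
    (hk : k < M) (h1 : a (d * k + s) ≤ y) (h2 : y < a (d * k + s + 1)) :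
    cum y (chi d M s a) = 1 := by
  have := cum_chi (M := M) (s := s) hd ha (y := y) (q := 2 * k) (by omega)
    (by rw [cidx_even]; exact h1) (fun _ => by rw [cidx_odd]; exact h2)
  rw [this, if_pos (by omega)]

theorem cum_chi_generic {d M s : ℕ} (hd : 2 ≤ d) {a : ℕ → ℕ} (ha : StrictMono a) {y k : ℕ}
    (hk : k < M) (h1 : a (d * k + s + 1) ≤ y) (h2 : y < a (d * (k + 1) + s)) :
    cum y (chi d M s a) = 0 := by
  have := cum_chi (M := M) (s := s) hd ha (y := y) (q := 2 * k + 1) (by omega)
    (by rw [cidx_odd]; exact h1)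
    (fun _ => by rw [show 2 * k + 1 + 1 = 2 * (k + 1) by ring, cidx_even]; exact h2)
  rw [this, if_neg (by omega)]

theorem pat_step {d M i : ℕ} (hd : 2 ≤ d) {a a' : ℕ → ℕ} (ha : StrictMono a)
    (ha' : StrictMono a') {s s' : ℕ} (hs : s < d) (hs' : s' < d) (hne : s' ≠ s)
    {v : ℕ →₀ ℝ} (hv : Pat d M i a s v)
    (hc : Compat d M s' a a' ∨ Compat d M s' a' a) :
    Pat d M (i + 1) a' s' (v + (chi d M s' a - chi d M s' a')) := by
  have hd0 : 0 < d := by omega
  refine ⟨by rw [map_add, map_sub, tot_chi, tot_chi, hv.tot_eq]; ring, ?_, ?_⟩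
  · intro q' hq1 hq2 hq3 y hy1 hy2
    rw [Nat.mul_succ] at hq1 hq2
    -- locate the generic region
    obtain ⟨k, hk1, hk2⟩ : ∃ k, d * k + s' + 1 ≤ q' ∧ q' + 1 ≤ d * (k + 1) + s' := by
      have hdm := Nat.div_add_mod q' d
      have hr := Nat.mod_lt q' hd0
      rcases Nat.lt_or_ge s' (q' % d) with h | h
      · exact ⟨q' / d, by omega, by rw [Nat.mul_succ]; omega⟩
      · have h' : q' % d < s' := by omega
        have hq0 : 1 ≤ q' / d := by
          by_contra hcon
          have : q' / d = 0 := Nat.lt_one_iff.1 (Nat.lt_of_not_le hcon)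
          rw [this] at hdm
          omega
        obtain ⟨k, hk⟩ := Nat.exists_eq_add_of_le hq0
        refine ⟨k, ?_, ?_⟩
        · rw [hk, Nat.mul_add, mul_one] at hdm; omega
        · rw [hk, Nat.mul_add, mul_one] at hdm
          rw [Nat.mul_succ]; omega
    have hkM : k + 2 < M := by
      refine Nat.lt_of_mul_lt_mul_left (a := d) ?_
      rw [Nat.mul_add]; omega
    rw [Nat.mul_succ] at hk2
    obtain ⟨k', hk', h1, h2⟩ := compat_gen hc hkM
    have hk'M : k' < M := by omega
    have hdk' : d * k ≤ d * k' ∧ d * k' ≤ d * k + d := by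
      rcases hk' with h | h
      · rw [h, Nat.mul_succ]; omega
      · rw [h]; omega
    have e1 : a (d * k' + s') ≤ y := by
      rw [← h1]; exact (ha'.monotone hk1).trans hy1
    have e2 : y < a (d * k' + s' + 1) := by
      rw [← h2]
      refine hy2.trans_le (ha'.monotone ?_)
      rw [Nat.mul_succ]; exact hk2
    have e3 : cum y v = i := by
      refine hv.gen (d * k' + s') (by omega) (by omega) ?_ y e1 e2
      rw [Nat.mul_add_mod, Nat.mod_eq_of_lt hs']
      exact hne
    have e4 := cum_chi_special hd ha hk'M e1 e2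
    have e5 : cum y (chi d M s' a') = 0 := by
      refine cum_chi_generic hd ha' (k := k) (by omega) ((ha'.monotone hk1).trans hy1) ?_
      refine hy2.trans_le (ha'.monotone ?_)
      rw [Nat.mul_succ]; exact hk2
    rw [map_add, map_sub, e3, e4, e5]
    push_cast
    ring
  · intro q' hq1 hq2 hq3
    rw [Nat.mul_succ] at hq1 hq2
    have hdm := Nat.div_add_mod q' d
    rw [hq3] at hdm
    have hq0 : 1 ≤ q' / d := by
      by_contra hcon
      have : q' / d = 0 := Nat.lt_one_iff.1 (Nat.lt_of_not_le hcon)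
      rw [this] at hdm
      omega
    obtain ⟨k, hk⟩ := Nat.exists_eq_add_of_le hq0
    rw [hk, add_comm 1 k] at hdm
    have hkM : k + 2 < M := by
      refine Nat.lt_of_mul_lt_mul_left (a := d) ?_
      rw [Nat.mul_add]
      rw [Nat.mul_succ] at hdm
      omega
    obtain ⟨k', hk', h1, h2⟩ := compat_spec hc hkM
    have hk'M : k' < M := by omega
    have hdk' : d * k ≤ d * k' ∧ d * k' ≤ d * k + d := by
      rcases hk' with h | h
      · rw [h, Nat.mul_succ]; omega
      · rw [h]; omega
    -- choose an arc of `a` with label `s` inside the generic region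
    obtain ⟨q, hq4, hq5, hq6⟩ : ∃ q, d * k' + s' + 1 ≤ q ∧ q + 1 ≤ d * (k' + 1) + s' ∧ q % d = s := by
      rcases Nat.lt_or_ge s' s with h | h
      · refine ⟨d * k' + s, by omega, by rw [Nat.mul_succ]; omega, ?_⟩
        rw [Nat.mul_add_mod, Nat.mod_eq_of_lt hs]
      · refine ⟨d * (k' + 1) + s, by rw [Nat.mul_succ]; omega, by omega, ?_⟩
        rw [Nat.mul_add_mod, Nat.mod_eq_of_lt hs]
    have hkd : d * (k + 1) = d * k + d := Nat.mul_succ d k
    have hkd' : d * (k' + 1) = d * k' + d := Nat.mul_succ d k'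
    obtain ⟨y, hy1, hy2, hy3⟩ := hv.spec q (by omega) (by omega) hq6
    have e1 : a (d * k' + s' + 1) ≤ y := (ha.monotone hq4).trans hy1
    have e2 : y < a (d * (k' + 1) + s') := hy2.trans_le (ha.monotone hq5)
    have e1' : a' (d * (k + 1) + s') ≤ y := by rw [h1]; exact e1
    have e2' : y < a' (d * (k + 1) + s' + 1) := by rw [h2]; exact e2
    have e4 := cum_chi_generic hd ha hk'M e1 e2
    have e5 := cum_chi_special hd ha' (k := k + 1) (M := M) (by omega) e1' e2'
    refine ⟨y, by rw [← hdm]; exact e1', by rw [← hdm]; exact e2', ?_⟩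
    rw [map_add, map_sub, hy3, e4, e5]
    push_cast
    ring

/-- the step vector is a push-forward of `alt (2 M)` -/
theorem chi_sub_chi_eq {d M s : ℕ} (hd : 2 ≤ d) (hM : 1 ≤ M) {a a' : ℕ → ℕ} (ha : StrictMono a)
    (ha' : StrictMono a') (h : Compat d M s a a') :
    ∃ φ : ℕ → ℕ, Monotone φ ∧ chi d M s a - chi d M s a' = (alt (2 * M)).mapDomain φ := by
  classical
  set φ : ℕ → ℕ := fun j => if j < 2 * M then a (cidx d s j) else a' (cidx d s (2 * M - 1)) with hφ
  have hcidx := cidx_lt (s := s) hd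
  refine ⟨φ, ?_, ?_⟩
  · refine monotone_nat_of_le_succ fun j => ?_
    simp only [hφ]
    by_cases h1 : j + 1 < 2 * M
    · rw [if_pos (by (clear * - h1; omega)), if_pos h1]
      exact ha.monotone (hcidx.monotone (by omega))
    · by_cases h2 : j < 2 * M
      · rw [if_pos h2, if_neg h1]
        have hj : j = 2 * M - 1 := by omega
        have h3 := h (2 * M - 2) (by omega)
        rw [show 2 * M - 2 + 1 = 2 * M - 1 by omega] at h3
        rw [hj, ← h3]
        exact ha'.monotone (hcidx.monotone (by omega))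
      · rw [if_neg h2, if_neg h1]
  · unfold chi alt
    rw [← Finsupp.lmapDomain_apply ℝ ℝ, map_sum, ← Finset.sum_sub_distrib]
    refine Finset.sum_congr rfl fun j hj => ?_
    rw [Finset.mem_range] at hj
    rw [map_smul, map_sub, Finsupp.lmapDomain_apply, Finsupp.lmapDomain_apply,
      Finsupp.mapDomain_single, Finsupp.mapDomain_single, smul_sub]
    have e1 : φ j = a (cidx d s j) := by simp only [hφ]; rw [if_pos hj]
    have e2 : φ (j + 1) = a' (cidx d s j) := by
      simp only [hφ]
      by_cases h1 : j + 1 < 2 * M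
      · rw [if_pos h1, h j h1]
      · rw [if_neg h1, show 2 * M - 1 = j by omega]
    rw [e1, e2]

end P125
end
end

section

section

/-!
# P125 : the core theorem
-/

namespace P125

open Finset

theorem strict_of_succ {R : ℕ} {y : ℕ → ℕ} (h : ∀ j, j + 1 < R → y j < y (j + 1)) :
    ∀ i j, i < j → j < R → y i < y j := by
  intro i j hij
  induction j with
  | zero => omega
  | succ j ih =>
    intro hj
    rcases Nat.lt_or_ge i j with h1 | h1
    · exact (ih h1 (by omega)).trans (h j hj)
    · have : i = j := by omega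
      rw [this]; exact h j hj

/-- After `t` good steps the displacement has norm at least `t` times the norm of the
alternating vector. -/
theorem pat_final {d M' t : ℕ} (hd : 2 ≤ d) (hM' : 4 * t + 1 ≤ M') {a : ℕ → ℕ}
    (ha : StrictMono a) {s : ℕ} (hs : s < d) {v : ℕ →₀ ℝ} (hv : Pat d (2 * M') t a s v)
    (ν : Seminorm ℝ (ℕ →₀ ℝ))
    (hmono : ∀ α : ℕ → ℕ, Monotone α → ∀ x : ℕ →₀ ℝ, ν (x.mapDomain α) ≤ ν x) :
    t * ν (alt (2 * M')) ≤ ν v := by
  classical
  have hdM : ∀ x y : ℕ, x ≤ y → d * x ≤ d * y := fun x y h => Nat.mul_le_mul_left d h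
  -- the special points
  have hspec : ∀ l, l < M' → ∃ y, a (d * (2 * t + l + 1) + s) ≤ y ∧
      y < a (d * (2 * t + l + 1) + s + 1) ∧ cum y v = -t := by
    intro l hl
    refine hv.spec (d * (2 * t + l + 1) + s) ?_ ?_ ?_
    · have := hdM (2 * t) (2 * t + l + 1) (by omega)
      have e : d * (2 * t) = 2 * (d * t) := by ring
      omega
    · have h1 := hdM (4 * t + l + 2) (2 * M') (by omega)
      have e1 : d * (4 * t + l + 2) = d * (2 * t + l + 1) + 2 * (d * t) + d := by ring
      omega
    · rw [Nat.mul_add_mod, Nat.mod_eq_of_lt hs]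
  have hgen : ∀ l, l < M' → cum (a (d * (2 * t + l) + s + 1)) v = t := by
    intro l hl
    refine hv.gen (d * (2 * t + l) + s + 1) ?_ ?_ ?_ _ le_rfl (ha (Nat.lt_succ_self _))
    · have := hdM (2 * t) (2 * t + l) (by omega)
      have e : d * (2 * t) = 2 * (d * t) := by ring
      omega
    · have h1 := hdM (4 * t + l + 2) (2 * M') (by omega)
      have e1 : d * (4 * t + l + 2) = d * (2 * t + l) + 2 * (d * t) + d + d := by ring
      omega
    · rw [add_assoc, Nat.mul_add_mod]
      intro hcon
      rcases Nat.lt_or_ge (s + 1) d with h | h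
      · rw [Nat.mod_eq_of_lt h] at hcon; omega
      · have : s + 1 = d := by omega
        rw [this, Nat.mod_self] at hcon
        omega
  choose! g hg1 hg2 hg3 using hspec
  set y : ℕ → ℕ := fun j => if j % 2 = 0 then a (d * (2 * t + j / 2) + s + 1) else g (j / 2)
    with hy
  have hye : ∀ l, y (2 * l) = a (d * (2 * t + l) + s + 1) := by
    intro l
    simp only [hy]
    rw [if_pos (by omega), show 2 * l / 2 = l by omega]
  have hyo : ∀ l, y (2 * l + 1) = g l := by
    intro l
    simp only [hy]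
    rw [if_neg (by omega), show (2 * l + 1) / 2 = l by omega]
  have hstrict : ∀ i j, i < j → j < 2 * M' → y i < y j := by
    refine strict_of_succ fun j hj => ?_
    rcases Nat.even_or_odd' j with ⟨l, hl | hl⟩
    · subst hl
      rw [hye, hyo]
      refine lt_of_lt_of_le (ha ?_) (hg1 l (by omega))
      have e1 : d * (2 * t + l + 1) = d * (2 * t + l) + d := by ring
      omega
    · subst hl
      rw [hyo, show 2 * l + 1 + 1 = 2 * (l + 1) by ring, hye]
      exact hg2 l (by omega)
  have hval : ∀ j, j < 2 * M' → cum (y j) v = (-1) ^ j * (t : ℝ) := by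
    intro j hj
    rcases Nat.even_or_odd' j with ⟨l, hl | hl⟩
    · subst hl
      rw [hye, hgen l (by omega), pow_mul]; simp only [even_two, Even.neg_pow, one_pow, one_mul]
    · subst hl
      rw [hyo, hg3 l (by omega), pow_succ, pow_mul]; simp only [even_two, Even.neg_pow, one_pow, mul_neg, mul_one, neg_mul, one_mul]
  obtain ⟨α, hα, hα2⟩ := exists_monotone_push hstrict hv.tot_eq hval
  have h1 := hmono α hα v
  rw [hα2, map_smul_eq_mul, Real.norm_eq_abs, Nat.abs_cast] at h1
  exact h1

theorem alt_double_le (ν : Seminorm ℝ (ℕ →₀ ℝ))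
    (hmono : ∀ α : ℕ → ℕ, Monotone α → ∀ x : ℕ →₀ ℝ, ν (x.mapDomain α) ≤ ν x) (M' : ℕ) :
    ν (alt (2 * (2 * M'))) ≤ 2 * ν (alt (2 * M')) := by
  have h1 : 2 * (2 * M') = 2 * M' + 2 * M' := by ring
  rw [h1, alt_add _ _ (even_two_mul M')]
  refine (map_add_le_add ν _ _).trans ?_
  have := hmono (fun x => 2 * M' + x) (fun x y h => by simpa only [add_le_add_iff_left] using h) (alt (2 * M'))
  linarith only [this]

theorem alt_pos (ν : Seminorm ℝ (ℕ →₀ ℝ))
    (hmono : ∀ α : ℕ → ℕ, Monotone α → ∀ x : ℕ →₀ ℝ, ν (x.mapDomain α) ≤ ν x)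
    (hpos : 0 < ν (Finsupp.single 0 1 - Finsupp.single 1 1)) {M : ℕ} (hM : 1 ≤ M) :
    0 < ν (alt (2 * M)) := by
  have h1 : (alt (2 * M)).mapDomain (fun x => min x 1) =
      Finsupp.single 0 1 - Finsupp.single 1 1 := by
    refine ext_cum fun y => ?_
    have e1 : cum y ((alt (2 * M)).mapDomain (fun x => min x 1)) =
        Finsupp.linearCombination ℝ (fun x => if min x 1 ≤ y then (1 : ℝ) else 0)
          (alt (2 * M)) := by
      unfold cum
      rw [Finsupp.linearCombination_mapDomain]
      rfl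
    rw [e1, map_sub, cum_single, cum_single]
    cases y with
    | zero =>
      have e2 : Finsupp.linearCombination ℝ (fun x => if min x 1 ≤ 0 then (1 : ℝ) else 0)
          (alt (2 * M)) = cum 0 (alt (2 * M)) := by
        unfold cum
        congr 2
        funext x
        congr 1
        simp only [eq_iff_iff]
        omega
      rw [e2, cum_alt, if_pos (by omega)]
      simp
    | succ y =>
      have e2 : Finsupp.linearCombination ℝ (fun x => if min x 1 ≤ y + 1 then (1 : ℝ) else 0)
          (alt (2 * M)) = cum (2 * M) (alt (2 * M)) := by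
        unfold alt
        rw [map_sum, map_sum]
        refine Finset.sum_congr rfl fun j hj => ?_
        rw [Finset.mem_range] at hj
        rw [map_smul, map_smul, map_sub, map_sub, cum_single, cum_single,
          Finsupp.linearCombination_single, Finsupp.linearCombination_single,
          if_pos (by omega), if_pos (by omega), if_pos (by omega), if_pos (by omega)]
        simp only [smul_eq_mul, mul_one, sub_self, mul_zero]
      rw [e2, cum_alt, if_neg (by omega), if_pos (by omega), if_pos (by omega)]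
      simp
  have h2 := hmono (fun x => min x 1) (fun x y h => min_le_min_right 1 h) (alt (2 * M))
  rw [h1] at h2
  exact lt_of_lt_of_le hpos h2

/-- The combinatorial input: approximately spreadable families of increasing sequences with
partial injections. -/
def LemmaAStatement : Prop :=
  ∀ (d M : ℕ), 2 ≤ d → ∀ η : ℝ, 0 < η → ∃ n : ℕ, 0 < n ∧
    ∃ (a : Fin n → ℕ → ℕ) (T : Fin d → (Fin n ≃. Fin n)), (∀ z, StrictMono (a z)) ∧
      (∀ s, ((Finset.univ.filter (fun z => T s z = none)).card : ℝ) ≤ η * n) ∧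
      (∀ (s : Fin d) z z', T s z = some z' → Compat d M s (a z) (a z'))

/-- The box lemma. -/
def BoxStatement : Prop :=
  ∀ {Z : Type} [Fintype Z] [DecidableEq Z] [Nonempty Z] {d : ℕ} (T : Fin d → (Z ≃. Z))
    (D : Fin d → Z → (ℕ →₀ ℝ)) (B : ℕ), 0 < B → ∀ {η : ℝ},
    (∀ s, ((Finset.univ.filter (fun z => T s z = none)).card : ℝ) ≤ η * Fintype.card Z) →
    ∃ (U : Type) (_ : Fintype U) (_ : DecidableEq U) (_ : Nonempty U) (T' : Fin d → (U ≃. U))
      (q : U → Z) (f : U → (ℕ →₀ ℝ)),
      (∀ s u u', T' s u = some u' → T s (q u) = some (q u') ∧ f u' - f u = D s (q u)) ∧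
      (∀ s, ((Finset.univ.filter (fun u => T' s u = none)).card : ℝ) ≤
        (η + 1 / B) * Fintype.card U)

theorem core_ineq (hA : LemmaAStatement) (hB : BoxStatement) {p K : ℝ} (hp : 1 < p) (hK : 0 ≤ K)
    (ν : Seminorm ℝ (ℕ →₀ ℝ))
    (hmono : ∀ α : ℕ → ℕ, Monotone α → ∀ x : ℕ →₀ ℝ, ν (x.mapDomain α) ≤ ν x)
    (hpos : 0 < ν (Finsupp.single 0 1 - Finsupp.single 1 1))
    (hM : MarkovIneq (fun x => ν x) p K) (t : ℕ) (ht : 1 ≤ t) :
    (1 / 2 : ℝ) * (t : ℝ) ^ p ≤ K ^ p * t * 2 ^ p := by
  classical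
  have htR : (0 : ℝ) < t := by exact_mod_cast ht
  set M' : ℕ := 5 * t with hM'def
  set M : ℕ := 2 * M' with hMdef
  set d : ℕ := 8 * t with hddef
  have hd : 2 ≤ d := by omega
  obtain ⟨n, hn, a, T, ha, hT, hc⟩ := hA d M hd (1 / (8 * t)) (by positivity)
  have : NeZero n := ⟨by omega⟩
  have : Nonempty (Fin n) := ⟨⟨0, hn⟩⟩
  -- displacement vectors
  let D : Fin d → Fin n → (ℕ →₀ ℝ) := fun s z =>
    match T s z with
    | some z' => chi d M s (a z) - chi d M s (a z')
    | none => 0
  have hD : ∀ s z z', T s z = some z' → D s z = chi d M s (a z) - chi d M s (a z') := by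
    intro s z z' h
    simp only [D, h]
  obtain ⟨U, _, _, _, T', q, f, hf, hT'⟩ := hB T D (8 * t) (by omega) (η := 1 / (8 * t))
    (by simpa only [one_div, mul_inv_rev, Fintype.card_fin] using hT)
  have hstep' : ∀ s u u', T' s u = some u' →
      Compat d M s (a (q u)) (a (q u')) ∧
        f u' - f u = chi d M s (a (q u)) - chi d M s (a (q u')) := by
    intro s u u' h
    obtain ⟨h1, h2⟩ := hf s u u' h
    exact ⟨hc s _ _ h1, by rw [h2, hD s _ _ h1]⟩
  set β := ν (alt (2 * M')) with hβ
  have hβpos : 0 < β := alt_pos ν hmono hpos (by omega)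
  have key := core_chain (U := U) (d := d) T' (by omega) (fun x => ν x)
    (fun x => apply_nonneg ν x) (map_zero ν) (fun x => map_neg_eq_map ν x) f
    (fun i u s v => Pat d M i (a (q u)) s v)
    (fun u s => pat_zero d M (ha _) s) ?_ ht hβpos.le ?_ (γ := 2 * β) (by positivity) ?_
    (η := 1 / (8 * t) + 1 / (8 * t)) (by positivity) ?_ (p := p) (K := K) (by linarith only [hp]) hK hM
  · -- conclude
    have h1 : (1 / 2 : ℝ) ≤ 1 - t * (1 / (d : ℝ) + (1 / (8 * t) + 1 / (8 * t))) := by
      have : (d : ℝ) = 8 * t := by simp [hddef]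
      rw [this]
      have h8 : (t : ℝ) * (1 / (8 * t) + (1 / (8 * t) + 1 / (8 * t))) = 3 / 8 := by
        field_simp; norm_num
      rw [h8]; norm_num
    rw [Real.mul_rpow htR.le hβpos.le, Real.mul_rpow (by norm_num) hβpos.le] at key
    have h2 : (0 : ℝ) < β ^ p := Real.rpow_pos_of_pos hβpos p
    have h3 : (0 : ℝ) ≤ (t : ℝ) ^ p * β ^ p := by (clear * - ht hβpos; positivity)
    have h4 : (1 / 2 : ℝ) * ((t : ℝ) ^ p * β ^ p) ≤ K ^ p * t * (2 ^ p * β ^ p) :=
      (mul_le_mul_of_nonneg_right h1 h3).trans key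
    have h5 : ((1 / 2 : ℝ) * (t : ℝ) ^ p) * β ^ p ≤ (K ^ p * t * 2 ^ p) * β ^ p := by
      calc _ = (1 / 2 : ℝ) * ((t : ℝ) ^ p * β ^ p) := by ring
        _ ≤ _ := h4
        _ = _ := by ring
    exact le_of_mul_le_mul_right h5 h2
  · -- induction step of the pattern
    intro i u s v s' u' hPr hne hT
    have hne' : (s' : ℕ) ≠ (s : ℕ) := fun h => hne (Fin.ext h)
    rcases hT with h | h
    · obtain ⟨h1, h2⟩ := hstep' s' u u' h
      rw [h2]
      exact pat_step hd (ha _) (ha _) s.2 s'.2 hne' hPr (Or.inl h1)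
    · obtain ⟨h1, h2⟩ := hstep' s' u' u h
      have h3 : f u' - f u = chi d M s' (a (q u)) - chi d M s' (a (q u')) := by
        rw [← neg_sub (f u), h2, neg_sub]
      rw [h3]
      exact pat_step hd (ha _) (ha _) s.2 s'.2 hne' hPr (Or.inr h1)
  · intro u s v hPr
    exact pat_final hd (by omega) (ha _) s.2 hPr ν hmono
  · intro s u u' h
    obtain ⟨h1, h2⟩ := hstep' s u u' h
    obtain ⟨φ, hφ, h3⟩ := chi_sub_chi_eq hd (by omega) (ha _) (ha _) h1
    rw [h2, h3]
    exact (hmono φ hφ _).trans (alt_double_le ν hmono M')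
  · intro s
    have := hT' s
    push_cast at this
    exact this

theorem core_mono_of (hA : LemmaAStatement) (hB : BoxStatement) {p K : ℝ} (hp : 1 < p)
    (hK : 0 ≤ K) (ν : Seminorm ℝ (ℕ →₀ ℝ))
    (hmono : ∀ α : ℕ → ℕ, Monotone α → ∀ x : ℕ →₀ ℝ, ν (x.mapDomain α) ≤ ν x)
    (hpos : 0 < ν (Finsupp.single 0 1 - Finsupp.single 1 1))
    (hM : MarkovIneq (fun x => ν x) p K) : False := by
  have key := core_ineq hA hB hp hK ν hmono hpos hM
  -- `t ^ (p - 1) ≤ 2 K ^ p 2 ^ p` for all `t`
  have h1 : ∀ t : ℕ, 1 ≤ t → (t : ℝ) ^ (p - 1) ≤ 2 * (K ^ p * 2 ^ p) := by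
    intro t ht
    have htR : (0 : ℝ) < t := by exact_mod_cast ht
    have h2 := key t ht
    have h3 : (t : ℝ) ^ p = (t : ℝ) ^ (p - 1) * t := by
      rw [← Real.rpow_add_one htR.ne']; ring_nf
    rw [h3] at h2
    have h4 : ((1 / 2 : ℝ) * (t : ℝ) ^ (p - 1)) * t ≤ (K ^ p * 2 ^ p) * t := by
      calc _ = (1 / 2 : ℝ) * ((t : ℝ) ^ (p - 1) * t) := by ring
        _ ≤ _ := h2
        _ = _ := by ring
    have h5 := le_of_mul_le_mul_right h4 htR
    linarith only [h5]
  have h2 : Filter.Tendsto (fun t : ℕ => (t : ℝ) ^ (p - 1)) Filter.atTop Filter.atTop :=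
    (tendsto_rpow_atTop (by linarith)).comp tendsto_natCast_atTop_atTop
  obtain ⟨t, ht1, ht2⟩ := ((h2.eventually_gt_atTop (2 * (K ^ p * 2 ^ p))).and
    (Filter.eventually_ge_atTop 1)).exists
  exact absurd (h1 t ht2) (not_le.2 ht1)

end P125
end
end

section

section

/-!
# P125 : auxiliary definitions for the core (not used in the final statement)
-/

namespace P125

open Finset

/-- tail sum of a finitely supported sequence -/
noncomputable def tailSum (x : ℕ →₀ ℝ) (r : ℕ) : ℝ := ∑ j ∈ x.support.filter (fun j => r ≤ j), x j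

/-- The hypothesis of the core theorem: summing-basis-like seminorms of every length,
with uniform constants, all satisfying the same Markov type inequality. -/
def JamesFamily (p K θ : ℝ) : Prop :=
  ∀ k : ℕ, ∃ M : Seminorm ℝ (ℕ →₀ ℝ), (∀ j, M (Finsupp.single j 1) ≤ 1) ∧
    (∀ x : ℕ →₀ ℝ, (∀ j ∈ x.support, j < k) → ∀ r, θ * |tailSum x r| ≤ M x) ∧
    MarkovIneq (fun x => M x) p K

end P125
end
end

section

section

/-!
# P125 : James data for a pairing

`B : Z × W → ℝ` is a pairing of normed spaces with `|B z w| ≤ ‖z‖ ‖w‖` which is half-norming.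
It will be used for `(X, X*)` and `(X*, X)`.
-/

namespace P125

open Finset

variable {Z W : Type*} [NormedAddCommGroup Z] [NormedSpace ℝ Z] [NormedAddCommGroup W]
  [NormedSpace ℝ W]

/-- a bounded half-norming pairing -/
structure NormingPairing (B : Z →ₗ[ℝ] W →ₗ[ℝ] ℝ) : Prop where
  bound : ∀ z w, |B z w| ≤ ‖z‖ * ‖w‖
  norming : ∀ z, ∃ w, ‖w‖ ≤ 1 ∧ ‖z‖ / 2 ≤ B z w

/-- James data of length `m` with root `x`, jump size `lam` and weight `a`. -/
def JData (B : Z →ₗ[ℝ] W →ₗ[ℝ] ℝ) (lam : ℝ) (m : ℕ) (x : Z) (a : ℝ) : Prop :=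
  ∃ (n : ℕ) (μ : Fin n → ℝ) (M : ℕ → Fin n → Z) (g : ℕ → Fin n → W) (c : ℕ → ℝ),
    (∀ i, 0 ≤ μ i) ∧ (∑ i, μ i = 1) ∧ (∀ k i, ‖M k i‖ ≤ 1) ∧ (∀ j i, ‖g j i‖ ≤ 1) ∧
    (∀ j, ∑ i, μ i • g j i = 0) ∧ (∀ k, ∑ i, μ i • M k i = x) ∧
    (∀ j < m, ∀ k ≤ j, ∑ i, μ i * B (M k i) (g j i) = 0) ∧
    (∀ j < m, ∀ k, j < k → ∑ i, μ i * B (M k i) (g j i) = c j) ∧
    (∀ j < m, lam * a ≤ c j)

/-- No long James data of weight `> 1/2`. -/
def JBound (B : Z →ₗ[ℝ] W →ₗ[ℝ] ℝ) : Prop :=
  ∀ lam : ℝ, 0 < lam → ∃ m : ℕ, ∀ (x : Z) (a : ℝ), ‖x‖ ≤ 1 → JData B lam m x a → a ≤ 1 / 2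

/-- the pairing `(X, X*)` -/
noncomputable def pairPrimal (X : Type*) [NormedAddCommGroup X] [NormedSpace ℝ X] :
    X →ₗ[ℝ] (X →L[ℝ] ℝ) →ₗ[ℝ] ℝ :=
  LinearMap.mk₂ ℝ (fun x f => f x) (by intros; simp) (by intros; simp) (by intros; simp)
    (by intros; simp)

/-- the pairing `(X*, X)` -/
noncomputable def pairDual (X : Type*) [NormedAddCommGroup X] [NormedSpace ℝ X] :
    (X →L[ℝ] ℝ) →ₗ[ℝ] X →ₗ[ℝ] ℝ :=
  LinearMap.mk₂ ℝ (fun f x => f x) (by intros; simp) (by intros; simp) (by intros; simp)
    (by intros; simp)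

end P125
end
end

section

section

/-!
# P125 : closure properties of James data, and the concave functions they define
-/

namespace P125

open Finset

variable {Z W : Type*} [NormedAddCommGroup Z] [NormedSpace ℝ Z] [NormedAddCommGroup W]
  [NormedSpace ℝ W] {B : Z →ₗ[ℝ] W →ₗ[ℝ] ℝ}

/-- prepend a value to a sequence -/
def natCons {α : Type*} (a : α) (f : ℕ → α) : ℕ → α
  | 0 => a
  | k + 1 => f k

@[simp] theorem natCons_zero {α : Type*} (a : α) (f : ℕ → α) : natCons a f 0 = a := rfl

@[simp] theorem natCons_succ {α : Type*} (a : α) (f : ℕ → α) (k : ℕ) :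
    natCons a f (k + 1) = f k := rfl

/-- Data may be given over any finite index type. -/
theorem JData.of_fintype {ι : Type*} [Fintype ι] {lam : ℝ} {m : ℕ} {x : Z} {a : ℝ}
    (μ : ι → ℝ) (M : ℕ → ι → Z) (g : ℕ → ι → W) (c : ℕ → ℝ)
    (h1 : ∀ i, 0 ≤ μ i) (h2 : ∑ i, μ i = 1) (h3 : ∀ k i, ‖M k i‖ ≤ 1)
    (h4 : ∀ j i, ‖g j i‖ ≤ 1)
    (h5 : ∀ j, ∑ i, μ i • g j i = 0) (h6 : ∀ k, ∑ i, μ i • M k i = x)
    (h7 : ∀ j < m, ∀ k ≤ j, ∑ i, μ i * B (M k i) (g j i) = 0)
    (h8 : ∀ j < m, ∀ k, j < k → ∑ i, μ i * B (M k i) (g j i) = c j)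
    (h9 : ∀ j < m, lam * a ≤ c j) : JData B lam m x a := by
  classical
  let e := (Fintype.equivFin ι).symm
  refine ⟨Fintype.card ι, fun i => μ (e i), fun k i => M k (e i), fun j i => g j (e i), c,
    fun i => h1 _, ?_, fun k i => h3 _ _, fun j i => h4 _ _, fun j => ?_, fun k => ?_,
    fun j hj k hk => ?_, fun j hj k hk => ?_, h9⟩
  · rw [Equiv.sum_comp e μ]; exact h2
  · rw [Equiv.sum_comp e (fun i => μ i • g j i)]; exact h5 j
  · rw [Equiv.sum_comp e (fun i => μ i • M k i)]; exact h6 k
  · rw [Equiv.sum_comp e (fun i => μ i * B (M k i) (g j i))]; exact h7 j hj k hk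
  · rw [Equiv.sum_comp e (fun i => μ i * B (M k i) (g j i))]; exact h8 j hj k hk

theorem JData.zero {lam : ℝ} {x : Z} (hx : ‖x‖ ≤ 1) (a : ℝ) : JData B lam 0 x a := by
  refine JData.of_fintype (ι := Unit) (fun _ => 1) (fun _ _ => x) (fun _ _ => 0) (fun _ => 0)
    ?_ ?_ ?_ ?_ ?_ ?_ ?_ ?_ ?_ <;> simp [hx]

theorem JData.triv {lam : ℝ} (m : ℕ) {x : Z} (hx : ‖x‖ ≤ 1) : JData B lam m x 0 := by
  refine JData.of_fintype (ι := Unit) (fun _ => 1) (fun _ _ => x) (fun _ _ => 0) (fun _ => 0)
    ?_ ?_ ?_ ?_ ?_ ?_ ?_ ?_ ?_ <;> simp [hx]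

theorem JData.norm_le {lam : ℝ} {m : ℕ} {x : Z} {a : ℝ} (h : JData B lam m x a) : ‖x‖ ≤ 1 := by
  obtain ⟨n, μ, M, g, c, h1, h2, h3, h4, h5, h6, h7, h8, h9⟩ := h
  rw [← h6 0, ← h2]
  refine (norm_sum_le _ _).trans (Finset.sum_le_sum fun i _ => ?_)
  rw [norm_smul, Real.norm_of_nonneg (h1 i)]
  exact mul_le_of_le_one_right (h1 i) (h3 0 i)

theorem JData.neg {lam : ℝ} {m : ℕ} {x : Z} {a : ℝ} (h : JData B lam m x a) :
    JData B lam m (-x) a := by
  obtain ⟨n, μ, M, g, c, h1, h2, h3, h4, h5, h6, h7, h8, h9⟩ := h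
  refine ⟨n, μ, fun k i => - M k i, fun j i => - g j i, c, h1, h2, fun k i => ?_, fun j i => ?_,
    fun j => ?_, fun k => ?_, fun j hj k hk => ?_, fun j hj k hk => ?_, h9⟩
  · rw [norm_neg]; exact h3 k i
  · rw [norm_neg]; exact h4 j i
  · simp only [smul_neg, Finset.sum_neg_distrib, h5 j, neg_zero]
  · simp only [smul_neg, sum_neg_distrib, h6 k]
  · simpa only [map_neg, LinearMap.neg_apply, neg_neg] using h7 j hj k hk
  · simpa only [map_neg, LinearMap.neg_apply, neg_neg] using h8 j hj k hk

theorem JData.convex {lam : ℝ} {m : ℕ} {x y : Z} {a b θ : ℝ} (hx : JData B lam m x a)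
    (hy : JData B lam m y b) (hθ0 : 0 ≤ θ) (hθ1 : θ ≤ 1) :
    JData B lam m (θ • x + (1 - θ) • y) (θ * a + (1 - θ) * b) := by
  obtain ⟨n, μ, M, g, c, h1, h2, h3, h4, h5, h6, h7, h8, h9⟩ := hx
  obtain ⟨n', μ', M', g', c', h1', h2', h3', h4', h5', h6', h7', h8', h9'⟩ := hy
  have hθ2 : 0 ≤ 1 - θ := by linarith
  refine JData.of_fintype (ι := Fin n ⊕ Fin n')
    (Sum.elim (fun i => θ * μ i) (fun i => (1 - θ) * μ' i))
    (fun k => Sum.elim (M k) (M' k)) (fun j => Sum.elim (g j) (g' j))
    (fun j => θ * c j + (1 - θ) * c' j) ?_ ?_ ?_ ?_ ?_ ?_ ?_ ?_ ?_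
  · rintro (i | i)
    · exact mul_nonneg hθ0 (h1 i)
    · exact mul_nonneg hθ2 (h1' i)
  · simp only [Fintype.sum_sum_type, Sum.elim_inl, Sum.elim_inr, ← Finset.mul_sum, h2, h2']
    ring
  · rintro k (i | i)
    · exact h3 k i
    · exact h3' k i
  · rintro j (i | i)
    · exact h4 j i
    · exact h4' j i
  · intro j
    simp only [Fintype.sum_sum_type, Sum.elim_inl, Sum.elim_inr, mul_smul, ← Finset.smul_sum,
      h5, h5', smul_zero, add_zero]
  · intro k
    simp only [Fintype.sum_sum_type, Sum.elim_inl, mul_smul, ← smul_sum, h6, Sum.elim_inr, h6']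
  · intro j hj k hk
    simp only [Fintype.sum_sum_type, Sum.elim_inl, Sum.elim_inr, mul_assoc, ← Finset.mul_sum,
      h7 j hj k hk, h7' j hj k hk, mul_zero, add_zero]
  · intro j hj k hk
    simp only [Fintype.sum_sum_type, Sum.elim_inl, Sum.elim_inr, mul_assoc, ← Finset.mul_sum,
      h8 j hj k hk, h8' j hj k hk]
  · intro j hj
    have e1 := mul_le_mul_of_nonneg_left (h9 j hj) hθ0
    have e2 := mul_le_mul_of_nonneg_left (h9' j hj) hθ2
    nlinarith only [e1, e2]

theorem JData.jump (hB : NormingPairing B) {lam : ℝ} (hlam : 0 ≤ lam) {m : ℕ} {x v : Z}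
    {a b : ℝ} (hx : JData B lam m (x + v) a) (hy : JData B lam m (x - v) b)
    (ha : a ≤ 1) (hb : b ≤ 1) (hv : 2 * lam ≤ ‖v‖) :
    JData B lam (m + 1) x ((a + b) / 2) := by
  have hnx := hx.norm_le
  have hny := hy.norm_le
  have hx1 : ‖x‖ ≤ 1 := by
    have e : x = (1 / 2 : ℝ) • ((x + v) + (x - v)) := by
      have : (x + v) + (x - v) = (2 : ℝ) • x := by rw [two_smul]; abel
      rw [this, smul_smul]; norm_num
    rw [e, norm_smul]
    have := norm_add_le (x + v) (x - v)
    rw [Real.norm_of_nonneg (by norm_num : (0 : ℝ) ≤ 1 / 2)]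
    linarith
  obtain ⟨w, hw1, hw2⟩ := hB.norming v
  obtain ⟨n, μ, M, g, c, h1, h2, h3, h4, h5, h6, h7, h8, h9⟩ := hx
  obtain ⟨n', μ', M', g', c', h1', h2', h3', h4', h5', h6', h7', h8', h9'⟩ := hy
  -- pairing of averages
  have avg1 : ∀ k, ∑ i, μ i * B (M k i) w = B (x + v) w := by
    intro k
    rw [← h6 k, map_sum, LinearMap.sum_apply]
    exact Finset.sum_congr rfl fun i _ => by rw [map_smul, LinearMap.smul_apply, smul_eq_mul]
  have avg2 : ∀ k, ∑ i, μ' i * B (M' k i) w = B (x - v) w := by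
    intro k
    rw [← h6' k, map_sum, LinearMap.sum_apply]
    exact Finset.sum_congr rfl fun i _ => by rw [map_smul, LinearMap.smul_apply, smul_eq_mul]
  have avg3 : ∀ j, ∑ i, μ i * B x (g j i) = 0 := by
    intro j
    have : B x (∑ i, μ i • g j i) = 0 := by rw [h5 j, map_zero]
    rw [map_sum] at this
    simpa only [map_smul, smul_eq_mul] using this
  have avg4 : ∀ j, ∑ i, μ' i * B x (g' j i) = 0 := by
    intro j
    have : B x (∑ i, μ' i • g' j i) = 0 := by rw [h5' j, map_zero]
    rw [map_sum] at this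
    simpa only [map_smul, smul_eq_mul] using this
  refine JData.of_fintype (ι := Fin n ⊕ Fin n')
    (Sum.elim (fun i => (1 / 2) * μ i) (fun i => (1 / 2) * μ' i))
    (natCons (fun _ => x) (fun k => Sum.elim (M k) (M' k)))
    (natCons (Sum.elim (fun _ => w) (fun _ => - w)) (fun j => Sum.elim (g j) (g' j)))
    (natCons (B v w) (fun j => (c j + c' j) / 2)) ?_ ?_ ?_ ?_ ?_ ?_ ?_ ?_ ?_
  · rintro (i | i)
    · exact mul_nonneg (by norm_num) (h1 i)
    · exact mul_nonneg (by norm_num) (h1' i)
  · simp only [Fintype.sum_sum_type, Sum.elim_inl, Sum.elim_inr, ← Finset.mul_sum, h2, h2']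
    norm_num
  · rintro (_ | k) (i | i)
    · exact hx1
    · exact hx1
    · exact h3 k i
    · exact h3' k i
  · rintro (_ | j) (i | i)
    · exact hw1
    · show ‖-w‖ ≤ 1
      rw [norm_neg]; exact hw1
    · exact h4 j i
    · exact h4' j i
  · rintro (_ | j)
    · simp only [natCons_zero, Fintype.sum_sum_type, Sum.elim_inl, Sum.elim_inr,
        ← Finset.sum_smul, ← Finset.mul_sum, h2, h2', smul_neg, Finset.sum_neg_distrib]
      simp
    · simp only [natCons_succ, Fintype.sum_sum_type, Sum.elim_inl, Sum.elim_inr, mul_smul,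
        ← Finset.smul_sum, h5, h5', smul_zero, add_zero]
  · rintro (_ | k)
    · simp only [natCons_zero, ← sum_smul, Fintype.sum_sum_type, Sum.elim_inl, ← mul_sum, h2, Sum.elim_inr, h2']
      norm_num
    · simp only [natCons_succ, Fintype.sum_sum_type, Sum.elim_inl, mul_smul, ← smul_sum, h6, Sum.elim_inr, h6']
      rw [← smul_add]
      have : (x + v) + (x - v) = (2 : ℝ) • x := by rw [two_smul]; abel
      rw [this, smul_smul]; norm_num
  · rintro (_ | j) hj (_ | k) hk
    · simp only [natCons_zero, Fintype.sum_sum_type, Sum.elim_inl, Sum.elim_inr, map_neg, mul_neg,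
        Finset.sum_neg_distrib, ← Finset.sum_mul, ← Finset.mul_sum, h2, h2']
      ring
    · omega
    · simp only [natCons_zero, natCons_succ, Fintype.sum_sum_type, Sum.elim_inl, Sum.elim_inr,
        mul_assoc, ← Finset.mul_sum, avg3, avg4]
      ring
    · simp only [natCons_succ, Fintype.sum_sum_type, Sum.elim_inl, Sum.elim_inr, mul_assoc,
        ← Finset.mul_sum, h7 j (by omega) k (by omega), h7' j (by omega) k (by omega)]
      ring
  · rintro (_ | j) hj (_ | k) hk
    · omega
    · simp only [natCons_succ, natCons_zero, Fintype.sum_sum_type, Sum.elim_inl, mul_assoc, ← mul_sum, avg1, Sum.elim_inr, map_neg, mul_neg, sum_neg_distrib, avg2]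
      simp only [map_add, LinearMap.add_apply, map_sub, LinearMap.sub_apply]
      ring
    · omega
    · simp only [natCons_succ, Fintype.sum_sum_type, Sum.elim_inl, Sum.elim_inr, mul_assoc,
        ← Finset.mul_sum, h8 j (by omega) k (by omega), h8' j (by omega) k (by omega)]
      ring
  · rintro (_ | j) hj
    · show lam * ((a + b) / 2) ≤ B v w
      nlinarith only [hv, hw2, hlam, ha, hb]
    · show lam * ((a + b) / 2) ≤ (c j + c' j) / 2
      have e1 := h9 j (by omega)
      have e2 := h9' j (by omega)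
      linarith only [e1, e2]

/-- the value function -/
noncomputable def gfun (B : Z →ₗ[ℝ] W →ₗ[ℝ] ℝ) (lam : ℝ) (m : ℕ) (x : Z) : ℝ :=
  sSup {a : ℝ | a ≤ 1 ∧ JData B lam m x a}

theorem gfun_bdd (lam : ℝ) (m : ℕ) (x : Z) : BddAbove {a : ℝ | a ≤ 1 ∧ JData B lam m x a} :=
  ⟨1, fun _ ha => ha.1⟩

theorem gfun_nonempty {lam : ℝ} {m : ℕ} {x : Z} (hx : ‖x‖ ≤ 1) :
    (0 : ℝ) ∈ {a : ℝ | a ≤ 1 ∧ JData B lam m x a} :=
  ⟨zero_le_one, JData.triv m hx⟩

theorem le_gfun {lam : ℝ} {m : ℕ} {x : Z} {a : ℝ} (ha : a ≤ 1) (h : JData B lam m x a) :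
    a ≤ gfun B lam m x :=
  le_csSup (gfun_bdd lam m x) ⟨ha, h⟩

theorem gfun_nonneg {lam : ℝ} {m : ℕ} {x : Z} (hx : ‖x‖ ≤ 1) : 0 ≤ gfun B lam m x :=
  le_gfun zero_le_one (JData.triv m hx)

theorem gfun_le {lam : ℝ} {m : ℕ} {x : Z} (hx : ‖x‖ ≤ 1) {C : ℝ}
    (h : ∀ a, a ≤ 1 → JData B lam m x a → a ≤ C) : gfun B lam m x ≤ C :=
  csSup_le ⟨0, gfun_nonempty hx⟩ fun a ha => h a ha.1 ha.2

theorem gfun_le_one {lam : ℝ} {m : ℕ} {x : Z} (hx : ‖x‖ ≤ 1) : gfun B lam m x ≤ 1 :=
  gfun_le hx fun _ ha _ => ha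

theorem gfun_zero {lam : ℝ} {x : Z} (hx : ‖x‖ ≤ 1) : gfun B lam 0 x = 1 :=
  le_antisymm (gfun_le_one hx) (le_gfun le_rfl (JData.zero hx 1))

theorem gfun_neg {lam : ℝ} {m : ℕ} (x : Z) : gfun B lam m (-x) = gfun B lam m x := by
  unfold gfun
  congr 1
  ext a
  constructor
  · rintro ⟨h1, h2⟩
    exact ⟨h1, by simpa using h2.neg⟩
  · rintro ⟨h1, h2⟩
    exact ⟨h1, h2.neg⟩

theorem exists_near_gfun {lam : ℝ} {m : ℕ} {x : Z} (hx : ‖x‖ ≤ 1) {e : ℝ} (he : 0 < e) :
    ∃ a, a ≤ 1 ∧ JData B lam m x a ∧ gfun B lam m x - e < a := by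
  have := exists_lt_of_lt_csSup (b := gfun B lam m x - e) ⟨0, gfun_nonempty (B := B) (lam := lam)
    (m := m) hx⟩ (by show gfun B lam m x - e < gfun B lam m x; linarith)
  obtain ⟨a, ha, hlt⟩ := this
  exact ⟨a, ha.1, ha.2, hlt⟩

theorem gfun_concave {lam : ℝ} {m : ℕ} {x y : Z} {θ : ℝ} (hx : ‖x‖ ≤ 1) (hy : ‖y‖ ≤ 1)
    (h0 : 0 ≤ θ) (h1 : θ ≤ 1) :
    θ * gfun B lam m x + (1 - θ) * gfun B lam m y ≤ gfun B lam m (θ • x + (1 - θ) • y) := by
  refine le_of_forall_pos_le_add fun e he => ?_
  obtain ⟨a, ha1, ha2, ha3⟩ := exists_near_gfun (B := B) (lam := lam) (m := m) hx he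
  obtain ⟨b, hb1, hb2, hb3⟩ := exists_near_gfun (B := B) (lam := lam) (m := m) hy he
  have := le_gfun (B := B) (lam := lam) (m := m) (x := θ • x + (1 - θ) • y)
    (a := θ * a + (1 - θ) * b) (by nlinarith only [h0, ha1, h1, hb1]) (ha2.convex hb2 h0 h1)
  nlinarith only [this, h0, ha3, h1, hb3]

theorem gfun_jump (hB : NormingPairing B) {lam : ℝ} (hlam : 0 ≤ lam) {m : ℕ} {x v : Z}
    (hx : ‖x + v‖ ≤ 1) (hy : ‖x - v‖ ≤ 1) (hv : 2 * lam ≤ ‖v‖) :
    (gfun B lam m (x + v) + gfun B lam m (x - v)) / 2 ≤ gfun B lam (m + 1) x := by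
  refine le_of_forall_pos_le_add fun e he => ?_
  obtain ⟨a, ha1, ha2, ha3⟩ := exists_near_gfun (B := B) (lam := lam) (m := m) hx he
  obtain ⟨b, hb1, hb2, hb3⟩ := exists_near_gfun (B := B) (lam := lam) (m := m) hy he
  have := le_gfun (B := B) (lam := lam) (m := m + 1) (x := x)
    (a := (a + b) / 2) (by linarith only [ha1, hb1]) (JData.jump hB hlam ha2 hb2 ha1 hb1 hv)
  linarith

/-- The uniformly concave function attached to a jump size. -/
theorem exists_psi (hB : NormingPairing B) (h : JBound B) {lam : ℝ} (hlam : 0 < lam) :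
    ∃ (C : ℝ) (ψ : Z → ℝ), 1 ≤ C ∧ (∀ x, ‖x‖ ≤ 1 → 0 ≤ ψ x ∧ ψ x ≤ C) ∧
      (∀ x, ψ (-x) = ψ x) ∧
      (∀ x y θ, ‖x‖ ≤ 1 → ‖y‖ ≤ 1 → 0 ≤ θ → θ ≤ 1 →
        θ * ψ x + (1 - θ) * ψ y ≤ ψ (θ • x + (1 - θ) • y)) ∧
      (∀ x v, ‖x + v‖ ≤ 1 → ‖x - v‖ ≤ 1 → lam ≤ ‖v‖ →
        (ψ (x + v) + ψ (x - v)) / 2 + 1 / 2 ≤ ψ x) := by
  obtain ⟨m, hm⟩ := h (lam / 2) (by linarith)
  refine ⟨m + 1, fun x => ∑ i ∈ Finset.range (m + 1), gfun B (lam / 2) i x, ?_, ?_, ?_, ?_, ?_⟩
  · have : (0 : ℝ) ≤ m := Nat.cast_nonneg m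
    linarith
  · intro x hx
    refine ⟨Finset.sum_nonneg fun i _ => gfun_nonneg hx, ?_⟩
    have := Finset.sum_le_card_nsmul (Finset.range (m + 1)) (fun i => gfun B (lam / 2) i x) 1
      (fun i _ => gfun_le_one hx)
    simpa only [ge_iff_le, card_range, nsmul_eq_mul, Nat.cast_add, Nat.cast_one, mul_one] using this
  · intro x
    exact Finset.sum_congr rfl fun i _ => gfun_neg x
  · intro x y θ hx hy h0 h1
    simp only [Finset.mul_sum]
    rw [← Finset.sum_add_distrib]
    exact Finset.sum_le_sum fun i _ => gfun_concave hx hy h0 h1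
  · intro x v hx hy hv
    have hx1 : ‖x‖ ≤ 1 := by
      have e : x = (1 / 2 : ℝ) • ((x + v) + (x - v)) := by
        have : (x + v) + (x - v) = (2 : ℝ) • x := by rw [two_smul]; abel
        rw [this, smul_smul]; norm_num
      rw [e, norm_smul]
      have := norm_add_le (x + v) (x - v)
      rw [Real.norm_of_nonneg (by norm_num : (0 : ℝ) ≤ 1 / 2)]
      linarith only [hx, hy, this]
    have e1 : ∑ i ∈ Finset.range (m + 1), gfun B (lam / 2) i x =
        ∑ i ∈ Finset.range m, gfun B (lam / 2) (i + 1) x + 1 := by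
      rw [Finset.sum_range_succ', gfun_zero hx1]
    have e2 : ∑ i ∈ Finset.range m, (gfun B (lam / 2) i (x + v) + gfun B (lam / 2) i (x - v)) / 2 ≤
        ∑ i ∈ Finset.range m, gfun B (lam / 2) (i + 1) x :=
      Finset.sum_le_sum fun i _ => gfun_jump hB (by linarith only [hlam]) hx hy (by linarith only [hv])
    have e3 : gfun B (lam / 2) m (x + v) ≤ 1 / 2 := gfun_le hx fun a _ hd => hm _ _ hx hd
    have e4 : gfun B (lam / 2) m (x - v) ≤ 1 / 2 := gfun_le hy fun a _ hd => hm _ _ hy hd
    have e5 : ∑ i ∈ Finset.range (m + 1), gfun B (lam / 2) i (x + v) =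
        ∑ i ∈ Finset.range m, gfun B (lam / 2) i (x + v) + gfun B (lam / 2) m (x + v) :=
      Finset.sum_range_succ _ _
    have e6 : ∑ i ∈ Finset.range (m + 1), gfun B (lam / 2) i (x - v) =
        ∑ i ∈ Finset.range m, gfun B (lam / 2) i (x - v) + gfun B (lam / 2) m (x - v) :=
      Finset.sum_range_succ _ _
    rw [← Finset.sum_div, Finset.sum_add_distrib] at e2
    show (∑ i ∈ Finset.range (m + 1), gfun B (lam / 2) i (x + v) +
      ∑ i ∈ Finset.range (m + 1), gfun B (lam / 2) i (x - v)) / 2 + 1 / 2 ≤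
      ∑ i ∈ Finset.range (m + 1), gfun B (lam / 2) i x
    rw [e1, e5, e6]
    linarith only [e2, e3, e4]

end P125
end
end

section

section

/-!
# P125 : the equivalent uniformly convex norm
-/

namespace P125

open Finset

variable {Z W : Type*} [NormedAddCommGroup Z] [NormedSpace ℝ Z] [NormedAddCommGroup W]
  [NormedSpace ℝ W]

/-- From countably many bounded concave functions with a gain at `2^{-k}`-jumps, one bounded
convex function with a gain at all jumps. -/
theorem exists_phi
    (hψ : ∀ lam : ℝ, 0 < lam → ∃ (C : ℝ) (ψ : Z → ℝ), 1 ≤ C ∧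
      (∀ x, ‖x‖ ≤ 1 → 0 ≤ ψ x ∧ ψ x ≤ C) ∧ (∀ x, ψ (-x) = ψ x) ∧
      (∀ x y θ, ‖x‖ ≤ 1 → ‖y‖ ≤ 1 → 0 ≤ θ → θ ≤ 1 →
        θ * ψ x + (1 - θ) * ψ y ≤ ψ (θ • x + (1 - θ) • y)) ∧
      (∀ x v, ‖x + v‖ ≤ 1 → ‖x - v‖ ≤ 1 → lam ≤ ‖v‖ →
        (ψ (x + v) + ψ (x - v)) / 2 + 1 / 2 ≤ ψ x)) :
    ∃ φ : Z → ℝ, φ 0 = 0 ∧ (∀ x, ‖x‖ ≤ 1 → 0 ≤ φ x ∧ φ x ≤ 1) ∧ (∀ x, φ (-x) = φ x) ∧
      (∀ x y θ, ‖x‖ ≤ 1 → ‖y‖ ≤ 1 → 0 ≤ θ → θ ≤ 1 →
        φ (θ • x + (1 - θ) • y) ≤ θ * φ x + (1 - θ) * φ y) ∧
      (∀ lam : ℝ, 0 < lam → ∃ κ : ℝ, 0 < κ ∧ κ ≤ 1 ∧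
        ∀ x v, ‖x + v‖ ≤ 1 → ‖x - v‖ ≤ 1 → lam ≤ ‖v‖ →
          φ x ≤ (φ (x + v) + φ (x - v)) / 2 - κ) := by
  choose C ψ hC hbd hsym hconc hjump using fun k : ℕ => hψ ((1 / 2 : ℝ) ^ k) (by positivity)
  set c : ℕ → ℝ := fun k => (1 / 2) * (1 / 2) ^ k / C k with hc
  have hCpos : ∀ k, 0 < C k := fun k => lt_of_lt_of_le one_pos (hC k)
  have hcpos : ∀ k, 0 < c k := fun k => by
    have := hCpos k
    simp only [hc]; positivity
  have hterm : ∀ x, ‖x‖ ≤ 1 → ∀ k, 0 ≤ c k * ψ k x ∧ c k * ψ k x ≤ (1 / 2) * (1 / 2) ^ k := by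
    intro x hx k
    refine ⟨mul_nonneg (hcpos k).le (hbd k x hx).1, ?_⟩
    calc c k * ψ k x ≤ c k * C k := mul_le_mul_of_nonneg_left (hbd k x hx).2 (hcpos k).le
      _ = (1 / 2) * (1 / 2) ^ k := by
        simp only [hc]
        rw [div_mul_cancel₀]
        exact (hCpos k).ne'
  have hgeo : Summable (fun k : ℕ => (1 / 2 : ℝ) * (1 / 2) ^ k) :=
    (summable_geometric_of_lt_one (by norm_num) (by norm_num)).mul_left _
  have hgeo1 : ∑' k : ℕ, (1 / 2 : ℝ) * (1 / 2) ^ k = 1 := by
    rw [tsum_mul_left, tsum_geometric_of_lt_one (by norm_num) (by norm_num)]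
    norm_num
  have hsum : ∀ x, ‖x‖ ≤ 1 → Summable (fun k => c k * ψ k x) := fun x hx =>
    Summable.of_nonneg_of_le (fun k => (hterm x hx k).1) (fun k => (hterm x hx k).2) hgeo
  set H : Z → ℝ := fun x => ∑' k, c k * ψ k x with hH
  have hH0 : ∀ x, ‖x‖ ≤ 1 → 0 ≤ H x := fun x hx => tsum_nonneg fun k => (hterm x hx k).1
  have hH1 : ∀ x, ‖x‖ ≤ 1 → H x ≤ 1 := fun x hx => by
    rw [← hgeo1]
    exact (hsum x hx).tsum_le_tsum (fun k => (hterm x hx k).2) hgeo
  have hHsym : ∀ x, H (-x) = H x := fun x => by simp only [hH, hsym]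
  have hHconc : ∀ x y θ, ‖x‖ ≤ 1 → ‖y‖ ≤ 1 → 0 ≤ θ → θ ≤ 1 →
      θ * H x + (1 - θ) * H y ≤ H (θ • x + (1 - θ) • y) := by
    intro x y θ hx hy h0 h1
    have hz : ‖θ • x + (1 - θ) • y‖ ≤ 1 := by
      refine (norm_add_le _ _).trans ?_
      rw [norm_smul, norm_smul, Real.norm_of_nonneg h0, Real.norm_of_nonneg (by linarith only [h1])]
      nlinarith only [hx, h0, hy, h1]
    simp only [hH]
    rw [← tsum_mul_left, ← tsum_mul_left, ← ((hsum x hx).mul_left θ).tsum_add
      ((hsum y hy).mul_left (1 - θ))]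
    refine (((hsum x hx).mul_left θ).add ((hsum y hy).mul_left (1 - θ))).tsum_le_tsum
      (fun k => ?_) (hsum _ hz)
    have := mul_le_mul_of_nonneg_left (hconc k x y θ hx hy h0 h1) (hcpos k).le
    calc θ * (c k * ψ k x) + (1 - θ) * (c k * ψ k y)
        = c k * (θ * ψ k x + (1 - θ) * ψ k y) := by ring
      _ ≤ _ := this
  have hHjump : ∀ k x v, ‖x + v‖ ≤ 1 → ‖x - v‖ ≤ 1 → (1 / 2 : ℝ) ^ k ≤ ‖v‖ →
      (H (x + v) + H (x - v)) / 2 + c k / 2 ≤ H x := by
    intro k0 x v h1 h2 hv
    have hx : x = (1 / 2 : ℝ) • (x + v) + (1 - 1 / 2 : ℝ) • (x - v) := by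
      have : (1 - 1 / 2 : ℝ) = 1 / 2 := by norm_num
      rw [this, ← smul_add]
      have : (x + v) + (x - v) = (2 : ℝ) • x := by rw [two_smul]; abel
      rw [this, smul_smul]; norm_num
    have hx1 : ‖x‖ ≤ 1 := by
      rw [hx]
      refine (norm_add_le _ _).trans ?_
      rw [norm_smul, norm_smul, Real.norm_of_nonneg (by norm_num), Real.norm_of_nonneg
        (by norm_num)]
      linarith only [h1, h2]
    have s1 := (hsum _ h1).mul_left (1 / 2)
    have s2 := (hsum _ h2).mul_left (1 / 2)
    have s3 : Summable (fun k => if k = k0 then c k0 / 2 else 0) :=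
      (hasSum_ite_eq k0 (c k0 / 2)).summable
    have e : (H (x + v) + H (x - v)) / 2 + c k0 / 2 =
        ∑' k, (((1 / 2) * (c k * ψ k (x + v)) + (1 / 2) * (c k * ψ k (x - v))) +
          (if k = k0 then c k0 / 2 else 0)) := by
      rw [(s1.add s2).tsum_add s3, s1.tsum_add s2, tsum_mul_left, tsum_mul_left, tsum_ite_eq]
      simp only [hH]
      ring
    rw [e]
    refine ((s1.add s2).add s3).tsum_le_tsum (fun k => ?_) (hsum x hx1)
    by_cases hk : k = k0
    · subst hk
      rw [if_pos rfl]
      have := mul_le_mul_of_nonneg_left (hjump k x v h1 h2 hv) (hcpos k).le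
      linarith only [this]
    · rw [if_neg hk]
      have h3 := hconc k (x + v) (x - v) (1 / 2) h1 h2 (by norm_num) (by norm_num)
      rw [← hx] at h3
      have := mul_le_mul_of_nonneg_left h3 (hcpos k).le
      linarith only [this]
  refine ⟨fun x => H 0 - H x, by simp, fun x hx => ⟨?_, ?_⟩, fun x => by simp only [hHsym],
    ?_, ?_⟩
  · have h3 := hHconc x (-x) (1 / 2) hx (by rwa [norm_neg]) (by norm_num) (by norm_num)
    rw [hHsym] at h3
    have : (1 / 2 : ℝ) • x + (1 - 1 / 2 : ℝ) • (-x) = 0 := by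
      have : (1 - 1 / 2 : ℝ) = 1 / 2 := by norm_num
      rw [this, smul_neg]; abel
    rw [this] at h3
    linarith only [h3]
  · have := hH1 0 (by simp only [norm_zero, zero_le_one])
    have := hH0 x hx
    (clear hψ hsym hconc hjump hH hHsym hHconc hHjump; linarith)
  · intro x y θ hx hy h0 h1
    have := hHconc x y θ hx hy h0 h1
    nlinarith only [this]
  · intro lam hlam
    obtain ⟨k, hk⟩ := exists_pow_lt_of_lt_one hlam (by norm_num : (1 / 2 : ℝ) < 1)
    refine ⟨c k / 2, by have := hcpos k; (clear * - this; positivity), ?_, fun x v h1 h2 hv => ?_⟩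
    · have e1 : c k ≤ (1 / 2) * (1 / 2) ^ k := by
        simp only [hc]
        exact div_le_self (by positivity) (hC k)
      have e2 : ((1 : ℝ) / 2) ^ k ≤ 1 := pow_le_one₀ (by norm_num) (by norm_num)
      linarith only [e1, e2]
    · have := hHjump k x v h1 h2 (hk.le.trans hv)
      linarith only [this]

/-- The gauge renorming. -/
theorem renorm_of_phi
    (hφ : ∃ φ : Z → ℝ, φ 0 = 0 ∧ (∀ x, ‖x‖ ≤ 1 → 0 ≤ φ x ∧ φ x ≤ 1) ∧ (∀ x, φ (-x) = φ x) ∧
      (∀ x y θ, ‖x‖ ≤ 1 → ‖y‖ ≤ 1 → 0 ≤ θ → θ ≤ 1 →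
        φ (θ • x + (1 - θ) • y) ≤ θ * φ x + (1 - θ) * φ y) ∧
      (∀ lam : ℝ, 0 < lam → ∃ κ : ℝ, 0 < κ ∧ κ ≤ 1 ∧
        ∀ x v, ‖x + v‖ ≤ 1 → ‖x - v‖ ≤ 1 → lam ≤ ‖v‖ →
          φ x ≤ (φ (x + v) + φ (x - v)) / 2 - κ)) : Superreflexive Z := by
  obtain ⟨φ, h0, hbd, hsym, hconv, hgain⟩ := hφ
  set A : Set Z := {x | ‖x‖ ≤ 1 ∧ 2 * ‖x‖ + φ x ≤ 1} with hA
  have hφle : ∀ x, ‖x‖ ≤ 1 → φ x ≤ ‖x‖ := by
    intro x hx
    by_cases hx0 : x = 0
    · subst hx0; simp [h0]
    have hpos : 0 < ‖x‖ := norm_pos_iff.mpr hx0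
    have hu : ‖(‖x‖⁻¹ : ℝ) • x‖ = 1 := by
      rw [norm_smul, norm_inv, norm_norm, inv_mul_cancel₀ hpos.ne']
    have := hconv ((‖x‖⁻¹ : ℝ) • x) 0 ‖x‖ hu.le (by simp only [norm_zero, zero_le_one]) hpos.le hx
    rw [smul_smul, mul_inv_cancel₀ hpos.ne', one_smul, smul_zero, add_zero, h0, mul_zero,
      add_zero] at this
    have h2 := (hbd ((‖x‖⁻¹ : ℝ) • x) hu.le).2
    nlinarith only [this, hpos, h2]
  have hA0 : (0 : Z) ∈ A := by simp only [hA, Set.mem_ofPred_eq, norm_zero, zero_le_one, mul_zero, h0, add_zero, and_self]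
  have hAconv : Convex ℝ A := by
    intro x hx y hy a b ha hb hab
    have hb' : b = 1 - a := by linarith only [hab]
    subst hb'
    have hn : ‖a • x + (1 - a) • y‖ ≤ a * ‖x‖ + (1 - a) * ‖y‖ := by
      refine (norm_add_le _ _).trans ?_
      rw [norm_smul, norm_smul, Real.norm_of_nonneg ha, Real.norm_of_nonneg hb]
    have h3 := hconv x y a hx.1 hy.1 ha (by linarith)
    have hx1 := hx.1
    have hx2 := hx.2
    have hy1 := hy.1
    have hy2 := hy.2
    refine ⟨?_, ?_⟩
    · nlinarith only [hn, ha, hx1, hb, hy1]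
    · nlinarith only [hn, h3, ha, hx2, hb, hy2]
  have hAsym : ∀ x ∈ A, -x ∈ A := by
    intro x hx
    refine ⟨by rw [norm_neg]; exact hx.1, ?_⟩
    rw [norm_neg, hsym]; exact hx.2
  have hAball : Metric.closedBall (0 : Z) (1 / 3) ⊆ A := by
    intro x hx
    rw [mem_closedBall_zero_iff] at hx
    have := hφle x (by linarith only [hx])
    exact ⟨by linarith only [hx], by linarith only [hx, this]⟩
  have hAsub : A ⊆ Metric.closedBall (0 : Z) (1 / 2) := by
    intro x hx
    rw [mem_closedBall_zero_iff]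
    have := (hbd x hx.1).1
    have := hx.2
    (clear h0 hsym hconv hgain hA hφle hA0 hAconv hAsym hAball; linarith)
  have hAabs : Absorbent ℝ A :=
    (absorbent_ball_zero (by norm_num : (0 : ℝ) < 1 / 3)).mono
      (Metric.ball_subset_closedBall.trans hAball)
  have hAbal : Balanced ℝ A := by
    intro a ha
    rw [Real.norm_eq_abs] at ha
    rintro _ ⟨x, hx, rfl⟩
    have key : ∀ b : ℝ, 0 ≤ b → b ≤ 1 → ∀ y ∈ A, b • y ∈ A := by
      intro b hb0 hb1 y hy
      have := hAconv hy hA0 hb0 (sub_nonneg.mpr hb1) (by ring)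
      simpa using this
    show a • x ∈ A
    rcases le_total 0 a with h | h
    · exact key a h (by rwa [abs_of_nonneg h] at ha) x hx
    · have := key (-a) (by linarith only [h]) (by rwa [abs_of_nonpos h] at ha) (-x) (hAsym x hx)
      simpa using this
  refine ⟨gaugeSeminorm hAbal hAconv hAabs, ⟨2, 3, by norm_num, by norm_num, fun x => ⟨?_, ?_⟩⟩,
    ?_⟩
  · have := le_gauge_of_subset_closedBall hAabs (by norm_num : (0 : ℝ) ≤ 1 / 2) hAsub (x := x)
    show 2 * ‖x‖ ≤ gauge A x
    calc 2 * ‖x‖ = ‖x‖ / (1 / 2) := by ring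
      _ ≤ _ := this
  · have := mul_gauge_le_norm (x := x) (r := 1 / 3)
      (Metric.ball_subset_closedBall.trans hAball)
    show gauge A x ≤ 3 * ‖x‖
    linarith only [this]
  · intro ε hε hε2
    have hlow : ∀ x, 2 * ‖x‖ ≤ gauge A x := fun x => by
      have := le_gauge_of_subset_closedBall hAabs (by norm_num : (0 : ℝ) ≤ 1 / 2) hAsub (x := x)
      calc 2 * ‖x‖ = ‖x‖ / (1 / 2) := by ring
        _ ≤ _ := this
    have hup : ∀ x, gauge A x ≤ 3 * ‖x‖ := fun x => by
      have := mul_gauge_le_norm (x := x) (r := 1 / 3)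
        (Metric.ball_subset_closedBall.trans hAball)
      linarith only [this]
    obtain ⟨κ, hκ, hκ1, hg⟩ := hgain (ε / 12) (by (clear * - hε; positivity))
    set δ := κ / 3 with hδ
    have hδpos : 0 < δ := by positivity
    have hδ1 : δ ≤ 1 / 3 := by simp only [hδ]; linarith only [hκ1]
    refine ⟨(δ / 2) / (1 + δ), by (clear * - hκ; positivity), fun x y hx hy hxy => ?_⟩
    change gauge A x ≤ 1 at hx
    change gauge A y ≤ 1 at hy
    change ε ≤ gauge A (x - y) at hxy
    show gauge A ((1 / 2 : ℝ) • (x + y)) ≤ 1 - (δ / 2) / (1 + δ)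
    set r : ℝ := 1 + δ / 2 with hr
    have hrpos : 0 < r := by positivity
    have hr2 : r ≤ 2 := by simp only [hr]; linarith only [hκ1, hδ]
    have hr1 : 1 < r := by simp only [hr]; linarith only [hδpos]
    have hrinv : r⁻¹ < 1 := inv_lt_one_of_one_lt₀ hr1
    have hrinv0 : 0 < r⁻¹ := inv_pos.mpr hrpos
    have hmem : ∀ u, gauge A u ≤ 1 → r⁻¹ • u ∈ A := by
      intro u hu
      refine gauge_lt_one_subset_self hAconv hA0 hAabs ?_
      show gauge A (r⁻¹ • u) < 1
      rw [gauge_smul_of_nonneg hrinv0.le, smul_eq_mul]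
      have := gauge_nonneg (s := A) u
      nlinarith only [hrinv, hrinv0, hu]
    have hx' := hmem x hx
    have hy' := hmem y hy
    set x' := r⁻¹ • x with hx'def
    set y' := r⁻¹ • y with hy'def
    set z := (1 / 2 : ℝ) • (x' + y') with hz
    set v := (1 / 2 : ℝ) • (x' - y') with hv
    have hzv1 : z + v = x' := by
      simp only [hz, hv]
      rw [← smul_add]
      have : x' + y' + (x' - y') = (2 : ℝ) • x' := by rw [two_smul]; abel
      rw [this, smul_smul]; norm_num
    have hzv2 : z - v = y' := by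
      simp only [hz, hv]
      rw [← smul_sub]
      have : x' + y' - (x' - y') = (2 : ℝ) • y' := by rw [two_smul]; abel
      rw [this, smul_smul]; norm_num
    have hvn : ε / 12 ≤ ‖v‖ := by
      have e1 : ‖v‖ = (1 / 2) * (r⁻¹ * ‖x - y‖) := by
        simp only [hv, hx'def, hy'def]
        rw [← smul_sub, norm_smul, norm_smul, Real.norm_of_nonneg (by norm_num),
          Real.norm_of_nonneg hrinv0.le]
      have e2 : ε ≤ 3 * ‖x - y‖ := hxy.trans (hup _)
      have e3 : (1 : ℝ) / 2 ≤ r⁻¹ := by
        rw [one_div]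
        exact inv_anti₀ hrpos hr2
      rw [e1]
      have := norm_nonneg (x - y)
      nlinarith only [hε, e3, hrinv0, e2]
    have hgz := hg z v (by rw [hzv1]; exact hx'.1) (by rw [hzv2]; exact hy'.1) hvn
    rw [hzv1, hzv2] at hgz
    have hzn : ‖z‖ ≤ (‖x'‖ + ‖y'‖) / 2 := by
      simp only [hz]
      rw [norm_smul, Real.norm_of_nonneg (by norm_num)]
      have := norm_add_le x' y'
      linarith only [this]
    have hxn2 := hx'.2
    have hyn2 := hy'.2
    have hQz : 2 * ‖z‖ + φ z ≤ 1 - κ := by linarith only [hgz, hzn, hxn2, hyn2]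
    have hx'h : ‖x'‖ ≤ 1 / 2 := by simpa only [one_div, Metric.mem_closedBall, dist_zero_right] using hAsub hx'
    have hy'h : ‖y'‖ ≤ 1 / 2 := by simpa only [one_div, Metric.mem_closedBall, dist_zero_right] using hAsub hy'
    have hzh : ‖z‖ ≤ 1 / 2 := by linarith only [hzn, hx'h, hy'h]
    have h2z : ‖(2 : ℝ) • z‖ ≤ 1 := by
      rw [norm_smul, Real.norm_of_nonneg (by norm_num)]; linarith only [hzn, hx'h, hy'h]
    have hcomb := hconv z ((2 : ℝ) • z) (1 - δ) (by linarith only [hzn, hx'h, hy'h]) h2z (by linarith only [hκ1, hδ]) (by linarith only [hκ, hδ])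
    have hlin : (1 - δ) • z + (1 - (1 - δ)) • (2 : ℝ) • z = (1 + δ) • z := by
      generalize z = z0
      module
    rw [hlin] at hcomb
    have hnlin : ‖(1 + δ) • z‖ = (1 + δ) * ‖z‖ := by
      rw [norm_smul, Real.norm_of_nonneg (by linarith only [hκ, hδ])]
    have hmemz : (1 + δ) • z ∈ A := by
      refine ⟨?_, ?_⟩
      · rw [hnlin]; nlinarith only [hκ1, hδ, hzn, hx'h, hy'h, hκ]
      · rw [hnlin]
        have h3 := (hbd _ h2z).2
        have h4 := norm_nonneg z
        have h5 := (hbd z (by linarith only [hzn, hx'h, hy'h])).1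
        have h6 : (1 - δ) * φ z + (1 - (1 - δ)) * φ ((2 : ℝ) • z) ≤ φ z + δ := by nlinarith only [hκ, hδ, h3, h5, hyn2, hx'h, hy'h]
        have h7 : δ * ‖z‖ ≤ δ * (1 / 2) := mul_le_mul_of_nonneg_left hzh hδpos.le
        have h8 : κ = 3 * δ := by simp only [hδ]; ring
        linarith
    have hgz1 : gauge A ((1 + δ) • z) ≤ 1 := gauge_le_one_of_mem hmemz
    rw [gauge_smul_of_nonneg (by linarith only [hκ, hδ] : (0 : ℝ) ≤ 1 + δ), smul_eq_mul] at hgz1
    have hfin : (1 / 2 : ℝ) • (x + y) = r • z := by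
      simp only [hz, hx'def, hy'def]
      rw [← smul_add, smul_smul, smul_smul]
      congr 1
      (clear * - hrpos; field_simp)
    rw [hfin, gauge_smul_of_nonneg hrpos.le, smul_eq_mul]
    have hgz2 : gauge A z ≤ 1 / (1 + δ) := by
      rw [le_div_iff₀ (by linarith only [hκ, hδ])]
      linarith only [hgz1]
    calc r * gauge A z ≤ r * (1 / (1 + δ)) := mul_le_mul_of_nonneg_left hgz2 hrpos.le
      _ = 1 - (δ / 2) / (1 + δ) := by
        simp only [hr]
        field_simp
        ring

/-- A space with a norming pairing without long James data is superreflexive. -/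
theorem superreflexive_of_JBound {B : Z →ₗ[ℝ] W →ₗ[ℝ] ℝ} (hB : NormingPairing B)
    (h : JBound B) : Superreflexive Z :=
  renorm_of_phi (exists_phi fun _ hlam => exists_psi hB h hlam)

end P125
end
end

section

section

/-!
# P125 : the two pairings are norming
-/

namespace P125

theorem normingPairing_primal (X : Type*) [NormedAddCommGroup X] [NormedSpace ℝ X] :
    NormingPairing (pairPrimal X) where
  bound x f := by
    simp only [pairPrimal, LinearMap.mk₂_apply]
    rw [mul_comm]
    exact f.le_opNorm x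
  norming x := by
    obtain ⟨f, hf1, hf2⟩ := exists_dual_vector'' ℝ x
    refine ⟨f, hf1, ?_⟩
    simp only [pairPrimal, LinearMap.mk₂_apply]
    rw [hf2]
    have := norm_nonneg x
    simp only [RCLike.ofReal_real_eq_id, id_eq]
    linarith

theorem normingPairing_dual (X : Type*) [NormedAddCommGroup X] [NormedSpace ℝ X] :
    NormingPairing (pairDual X) where
  bound f x := by
    simp only [pairDual, LinearMap.mk₂_apply]
    exact f.le_opNorm x
  norming f := by
    rcases eq_or_ne f 0 with rfl | hf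
    · exact ⟨0, by simp, by simp⟩
    · have h0 : 0 < ‖f‖ := norm_pos_iff.mpr hf
      obtain ⟨x, hx, hfx⟩ := f.exists_lt_apply_of_lt_opNorm (r := ‖f‖ / 2) (by linarith)
      rcases le_total 0 (f x) with h | h
      · refine ⟨x, hx.le, ?_⟩
        simp only [pairDual, LinearMap.mk₂_apply]
        rw [Real.norm_of_nonneg h] at hfx
        exact hfx.le
      · refine ⟨-x, by rw [norm_neg]; exact hx.le, ?_⟩
        simp only [pairDual, map_neg, LinearMap.mk₂_apply]
        rw [Real.norm_of_nonpos h] at hfx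
        exact hfx.le

end P125
end
end

section

section

/-!
# P125 : `L_p` seminorms built from finitely many linear maps

For weights `μ i ≥ 0` and linear maps `L i : V → X` we consider the seminorm
`N v = (∑ i, μ i * ‖L i v‖ ^ p) ^ (1 / p)` on `V`.
-/

namespace P125

open Finset

variable {X : Type*} [NormedAddCommGroup X] [NormedSpace ℝ X]
variable {V : Type*} [AddCommGroup V] [Module ℝ V]
variable {ι : Type} [Fintype ι]

/-- `(∑ i, μ i * ‖L i v‖ ^ p) ^ (1 / p)` as a function of `v`. -/
noncomputable def lpFun (μ : ι → ℝ) (L : ι → V →ₗ[ℝ] X) (p : ℝ) (v : V) : ℝ :=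
  (∑ i, μ i * ‖L i v‖ ^ p) ^ (1 / p)

lemma lpFun_rpow {μ : ι → ℝ} (hμ : ∀ i, 0 ≤ μ i) (L : ι → V →ₗ[ℝ] X) {p : ℝ}
    (hp : 0 < p) (v : V) :
    lpFun μ L p v ^ p = ∑ i, μ i * ‖L i v‖ ^ p := by
  unfold lpFun
  rw [← Real.rpow_mul, one_div, inv_mul_cancel₀ hp.ne', Real.rpow_one]
  exact Finset.sum_nonneg fun i _ => mul_nonneg (hμ i) (by positivity)

/-- the `L_p` seminorm of a finite weighted family of linear maps -/
noncomputable def lpSeminorm (μ : ι → ℝ) (hμ : ∀ i, 0 ≤ μ i)
    (L : ι → V →ₗ[ℝ] X) (p : ℝ) (hp : 1 ≤ p) : Seminorm ℝ V :=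
  Seminorm.of (lpFun μ L p)
    (by
      intro x y
      have hp0 : 0 < p := by linarith
      unfold lpFun
      have key : ∀ z : V, (∑ i, μ i * ‖L i z‖ ^ p) = ∑ i, (μ i ^ (1 / p) * ‖L i z‖) ^ p := by
        intro z
        refine Finset.sum_congr rfl fun i _ => ?_
        rw [Real.mul_rpow (Real.rpow_nonneg (hμ i) _) (norm_nonneg _), ← Real.rpow_mul (hμ i),
          one_div, inv_mul_cancel₀ hp0.ne', Real.rpow_one]
      rw [key x, key y]
      refine le_trans ?_ (Real.Lp_add_le_of_nonneg (s := Finset.univ) hp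
        (f := fun i => μ i ^ (1 / p) * ‖L i x‖)
        (g := fun i => μ i ^ (1 / p) * ‖L i y‖)
        (fun i _ => mul_nonneg (Real.rpow_nonneg (hμ i) _) (norm_nonneg _))
        (fun i _ => mul_nonneg (Real.rpow_nonneg (hμ i) _) (norm_nonneg _)))
      rw [key (x + y)]
      apply Real.rpow_le_rpow
      · exact Finset.sum_nonneg fun i _ => Real.rpow_nonneg
          (mul_nonneg (Real.rpow_nonneg (hμ i) _) (norm_nonneg _)) _
      · refine Finset.sum_le_sum fun i _ => ?_
        apply Real.rpow_le_rpow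
        · exact mul_nonneg (Real.rpow_nonneg (hμ i) _) (norm_nonneg _)
        · rw [map_add, ← mul_add]
          exact mul_le_mul_of_nonneg_left (norm_add_le _ _) (Real.rpow_nonneg (hμ i) _)
        · exact hp0.le
      · positivity)
    (by
      intro c x
      have hp0 : 0 < p := by linarith
      unfold lpFun
      have : (∑ i, μ i * ‖L i (c • x)‖ ^ p) = ‖c‖ ^ p * ∑ i, μ i * ‖L i x‖ ^ p := by
        rw [Finset.mul_sum]
        refine Finset.sum_congr rfl fun i _ => ?_
        rw [map_smul, norm_smul, Real.mul_rpow (norm_nonneg _) (norm_nonneg _)]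
        ring
      rw [this, Real.mul_rpow (by positivity)
        (Finset.sum_nonneg fun i _ => mul_nonneg (hμ i) (by positivity)),
        ← Real.rpow_mul (norm_nonneg _), mul_one_div_cancel hp0.ne', Real.rpow_one])

lemma lpSeminorm_apply (μ : ι → ℝ) (hμ : ∀ i, 0 ≤ μ i) (L : ι → V →ₗ[ℝ] X) (p : ℝ)
    (hp : 1 ≤ p) (v : V) :
    lpSeminorm μ hμ L p hp v = (∑ i, μ i * ‖L i v‖ ^ p) ^ (1 / p) := rfl

lemma lpSeminorm_rpow (μ : ι → ℝ) (hμ : ∀ i, 0 ≤ μ i) (L : ι → V →ₗ[ℝ] X) (p : ℝ)
    (hp : 1 ≤ p) (v : V) :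
    lpSeminorm μ hμ L p hp v ^ p = ∑ i, μ i * ‖L i v‖ ^ p :=
  lpFun_rpow hμ L (by linarith) v

/-- The Markov type inequality passes from `X` to the seminorm. -/
theorem markovIneq_lpSeminorm (μ : ι → ℝ) (hμ : ∀ i, 0 ≤ μ i)
    (L : ι → V →ₗ[ℝ] X) {p K : ℝ} (hp : 1 ≤ p)
    (hX : MarkovIneq (fun x : X => ‖x‖) p K) :
    MarkovIneq (fun x => lpSeminorm μ hμ L p hp x) p K := by
  intro S _ _ π P hP f t ht
  have hp0 : 0 < p := by linarith only [hp]
  have key : ∀ s : ℕ, moment (fun x => lpSeminorm μ hμ L p hp x) p π P f s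
      = ∑ i, μ i * moment (fun x : X => ‖x‖) p π P (fun j => L i (f j)) s := by
    intro s
    unfold moment
    simp_rw [lpSeminorm_rpow, Finset.mul_sum]
    have h1 : ∀ i : S, ∑ j, ∑ ω, π i * (P ^ s) i j * (μ ω * ‖L ω (f j - f i)‖ ^ p)
        = ∑ ω, ∑ j, π i * (P ^ s) i j * (μ ω * ‖L ω (f j - f i)‖ ^ p) :=
      fun i => Finset.sum_comm
    simp_rw [h1]
    rw [Finset.sum_comm]
    refine Finset.sum_congr rfl fun ω _ => Finset.sum_congr rfl fun i _ =>
      Finset.sum_congr rfl fun j _ => ?_
    rw [map_sub]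
    ring
  rw [key, key, Finset.mul_sum]
  refine Finset.sum_le_sum fun ω _ => ?_
  have := hX S π P hP (fun i => L ω (f i)) t ht
  calc μ ω * _ ≤ μ ω * _ := mul_le_mul_of_nonneg_left this (hμ ω)
    _ = _ := by ring

/-- If all `‖L i v‖ ≤ C` then `N v ≤ C`. -/
lemma lpSeminorm_le_of_forall_le (μ : ι → ℝ) (hμ : ∀ i, 0 ≤ μ i) (hμ1 : ∑ i, μ i = 1)
    (L : ι → V →ₗ[ℝ] X) {p : ℝ} (hp : 1 ≤ p) {v : V} {C : ℝ} (hC : 0 ≤ C)
    (h : ∀ i, ‖L i v‖ ≤ C) :
    lpSeminorm μ hμ L p hp v ≤ C := by
  have hp0 : 0 < p := by linarith only [hp]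
  rw [lpSeminorm_apply]
  have h1 : (∑ i, μ i * ‖L i v‖ ^ p) ≤ C ^ p := by
    calc (∑ i, μ i * ‖L i v‖ ^ p) ≤ ∑ i, μ i * C ^ p := by
          refine Finset.sum_le_sum fun i _ => mul_le_mul_of_nonneg_left ?_ (hμ i)
          exact Real.rpow_le_rpow (norm_nonneg _) (h i) hp0.le
      _ = C ^ p := by rw [← Finset.sum_mul, hμ1, one_mul]
  calc (∑ i, μ i * ‖L i v‖ ^ p) ^ (1 / p) ≤ (C ^ p) ^ (1 / p) := by
        apply Real.rpow_le_rpow _ h1 (by positivity)
        exact Finset.sum_nonneg fun i _ => mul_nonneg (hμ i) (by positivity)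
    _ = C := by rw [← Real.rpow_mul hC, mul_one_div_cancel hp0.ne', Real.rpow_one]

/-- Jensen: the `L_1` average is bounded by the `L_p` seminorm. -/
lemma sum_mul_norm_le_lpSeminorm (μ : ι → ℝ) (hμ : ∀ i, 0 ≤ μ i) (hμ1 : ∑ i, μ i = 1)
    (L : ι → V →ₗ[ℝ] X) {p : ℝ} (hp : 1 ≤ p) (v : V) :
    ∑ i, μ i * ‖L i v‖ ≤ lpSeminorm μ hμ L p hp v := by
  rw [lpSeminorm_apply]
  exact Real.arith_mean_le_rpow_mean Finset.univ μ (fun i => ‖L i v‖) (fun i _ => hμ i) hμ1
    (fun i _ => norm_nonneg _) hp

/-- Averages of functions dominated by the norm are bounded by the `L_p` seminorm. -/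
lemma abs_sum_mul_le_lpSeminorm (μ : ι → ℝ) (hμ : ∀ i, 0 ≤ μ i) (hμ1 : ∑ i, μ i = 1)
    (L : ι → V →ₗ[ℝ] X) {p : ℝ} (hp : 1 ≤ p) (v : V) (φ : ι → ℝ)
    (hφ : ∀ i, |φ i| ≤ ‖L i v‖) :
    |∑ i, μ i * φ i| ≤ lpSeminorm μ hμ L p hp v := by
  refine le_trans ?_ (sum_mul_norm_le_lpSeminorm μ hμ hμ1 L hp v)
  refine (Finset.abs_sum_le_sum_abs _ _).trans (Finset.sum_le_sum fun i _ => ?_)
  rw [abs_mul, abs_of_nonneg (hμ i)]
  exact mul_le_mul_of_nonneg_left (hφ i) (hμ i)

end P125
end
end

section

section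

/-!
# P125 : long James data in `X` or in its dual give James families for `X`

If `X` satisfies the Markov type inequality, then long James data for the pairing `(X*, X)`
(martingales in the unit ball of the dual) or for the pairing `(X, X*)` produce summing-type
seminorms on `ℕ →₀ ℝ` which are `L_p` combinations of norms of vectors of `X`.
-/

namespace P125

open Finset

variable {X : Type*} [NormedAddCommGroup X] [NormedSpace ℝ X]

/-- General tail estimate: if `∑ i, μ i * φ i (v l i) = if r ≤ l then θ else 0` for `l < k`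
with functionals `φ i` of norm at most one, then `θ * |tailSum x r| ≤ N x`. -/
lemma tail_le_lpSeminorm {n : ℕ} (μ : Fin n → ℝ) (hμ : ∀ i, 0 ≤ μ i) (hμ1 : ∑ i, μ i = 1)
    (v : ℕ → Fin n → X) {p : ℝ} (hp : 1 ≤ p) {θ : ℝ} (hθ : 0 ≤ θ) {k r : ℕ}
    (φ : Fin n → (X →L[ℝ] ℝ)) (hφ : ∀ i, ‖φ i‖ ≤ 1)
    (h : ∀ l, l < k → ∑ i, μ i * φ i (v l i) = if r ≤ l then θ else 0)
    (x : ℕ →₀ ℝ) (hx : ∀ j ∈ x.support, j < k) :
    θ * |tailSum x r| ≤
      lpSeminorm μ hμ (fun i => Finsupp.linearCombination ℝ (fun l => v l i)) p hp x := by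
  have h1 := abs_sum_mul_le_lpSeminorm μ hμ hμ1
    (fun i => Finsupp.linearCombination ℝ (fun l => v l i)) hp x
    (fun i => φ i (Finsupp.linearCombination ℝ (fun l => v l i) x)) (by
      intro i
      calc |φ i (Finsupp.linearCombination ℝ (fun l => v l i) x)|
          ≤ ‖φ i‖ * ‖Finsupp.linearCombination ℝ (fun l => v l i) x‖ := (φ i).le_opNorm _
        _ ≤ 1 * ‖Finsupp.linearCombination ℝ (fun l => v l i) x‖ := by gcongr; exact hφ i
        _ = _ := one_mul _)
  refine le_trans (le_of_eq ?_) h1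
  rw [show θ * |tailSum x r| = |θ * tailSum x r| by rw [abs_mul, abs_of_nonneg hθ]]
  congr 1
  calc θ * tailSum x r = ∑ l ∈ x.support, x l * (if r ≤ l then θ else 0) := by
        unfold tailSum
        rw [Finset.mul_sum, Finset.sum_filter]
        refine Finset.sum_congr rfl fun l _ => ?_
        split_ifs <;> ring
    _ = ∑ l ∈ x.support, x l * ∑ i, μ i * φ i (v l i) :=
        Finset.sum_congr rfl fun l hl => by rw [h l (hx l hl)]
    _ = ∑ i, μ i * φ i (Finsupp.linearCombination ℝ (fun l => v l i) x) := by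
        simp_rw [Finsupp.linearCombination_apply, Finsupp.sum, map_sum, map_smul, smul_eq_mul,
          Finset.mul_sum]
        rw [Finset.sum_comm]
        refine Finset.sum_congr rfl fun i _ => Finset.sum_congr rfl fun l _ => ?_
        ring

/-- Long James data for the dual pairing are impossible if `X` has the Markov inequality. -/
theorem jbound_dual {p K : ℝ} (hp : 1 < p) (hX : MarkovIneq (fun x : X => ‖x‖) p K)
    (core : ∀ θ : ℝ, 0 < θ → ¬ JamesFamily p K θ) : JBound (pairDual X) := by
  intro lam hlam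
  by_contra hcon
  push Not at hcon
  apply core (lam / 2) (by positivity)
  intro k
  obtain ⟨x₀, a, -, ⟨n, μ, M, g, c, hμ0, hμ1, hM, hg, -, -, h0, hc, hca⟩, ha⟩ := hcon k
  set θ : ℝ := lam / 2 with hθdef
  have hθ : 0 < θ := by positivity
  have hcθ : ∀ j, j < k → θ < c j := by
    intro j hj
    have h1 := hca j hj
    have h2 : lam / 2 < lam * a := by nlinarith only [hlam, ha]
    linarith only [hθdef, h1, h2]
  set v : ℕ → Fin n → X := fun l i =>
    if l < k then (θ / c (k - 1 - l)) • g (k - 1 - l) i else 0 with hv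
  refine ⟨lpSeminorm μ hμ0 (fun i => Finsupp.linearCombination ℝ (fun l => v l i)) p hp.le,
    ?_, ?_, markovIneq_lpSeminorm _ _ _ _ hX⟩
  · intro j
    apply lpSeminorm_le_of_forall_le μ hμ0 hμ1 _ hp.le zero_le_one
    intro i
    rw [Finsupp.linearCombination_single, one_smul, hv]
    simp only
    split_ifs with hj
    · have h1 := hcθ (k - 1 - j) (by omega)
      rw [norm_smul, Real.norm_of_nonneg (div_nonneg hθ.le (hθ.le.trans h1.le))]
      calc θ / c (k - 1 - j) * ‖g (k - 1 - j) i‖ ≤ 1 * 1 := by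
            apply mul_le_mul _ (hg _ _) (norm_nonneg _) zero_le_one
            rw [div_le_one (by linarith only [hθ, h1])]
            exact h1.le
        _ = 1 := one_mul 1
    · simp only [norm_zero, zero_le_one]
  · intro x hx r
    refine tail_le_lpSeminorm μ hμ0 hμ1 v hp.le hθ.le (k := k) (r := r)
      (fun i => M (k - r) i) (fun i => hM _ _) ?_ x hx
    intro l hl
    have hj : k - 1 - l < k := by omega
    have hcj := hcθ _ hj
    have e1 : ∑ i, μ i * (M (k - r) i) (v l i)
        = (θ / c (k - 1 - l)) * ∑ i, μ i * (pairDual X) (M (k - r) i) (g (k - 1 - l) i) := by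
      rw [Finset.mul_sum]
      refine Finset.sum_congr rfl fun i _ => ?_
      simp only [hv, if_pos hl, map_smul, smul_eq_mul, pairDual, LinearMap.mk₂_apply]
      ring
    rw [e1]
    by_cases hr : r ≤ l
    · rw [if_pos hr, hc _ hj (k - r) (by omega), div_mul_cancel₀]
      linarith only [hθ, hcj]
    · rw [if_neg hr, h0 _ hj (k - r) (by omega), mul_zero]

end P125
end
end

section

section

/-!
# P125 : the box lemma

Partial injections `T s` of a finite set `Z` together with labels `D s z` in a vector space `W`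
are lifted to partial injections of `U = Z × (Fin d × Z → Fin B)` whose labels are the increments
of a function `f : U → W`.
-/

namespace P125

open Finset

/-- The partial equivalence defined by a relation that is functional in both directions. -/
noncomputable def pequivOfRel {U : Type} (R : U → U → Prop)
    (h1 : ∀ u a b, R u a → R u b → a = b) (h2 : ∀ a b u, R a u → R b u → a = b) : U ≃. U := by
  classical
  exact
  { toFun := fun u => if h : ∃ v, R u v then some h.choose else none
    invFun := fun v => if h : ∃ u, R u v then some h.choose else none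
    inv := by
      intro a b
      constructor
      · intro h
        by_cases hb : ∃ u, R u b
        · rw [dif_pos hb] at h
          have hab : hb.choose = a := Option.some.inj h
          have hR : R a b := hab ▸ hb.choose_spec
          have ha : ∃ v, R a v := ⟨b, hR⟩
          rw [dif_pos ha]
          exact congrArg some (h1 a _ _ ha.choose_spec hR)
        · rw [dif_neg hb] at h
          exact absurd h (by simp)
      · intro h
        by_cases ha : ∃ v, R a v
        · rw [dif_pos ha] at h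
          have hab : ha.choose = b := Option.some.inj h
          have hR : R a b := hab ▸ ha.choose_spec
          have hb : ∃ u, R u b := ⟨a, hR⟩
          rw [dif_pos hb]
          exact congrArg some (h2 _ _ b hb.choose_spec hR)
        · rw [dif_neg ha] at h
          exact absurd h (by simp) }

lemma pequivOfRel_eq_some {U : Type} {R : U → U → Prop}
    {h1 : ∀ u a b, R u a → R u b → a = b} {h2 : ∀ a b u, R a u → R b u → a = b} {u v : U} :
    pequivOfRel R h1 h2 u = some v ↔ R u v := by
  classical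
  have e : pequivOfRel R h1 h2 u = if h : ∃ v, R u v then some h.choose else none := rfl
  rw [e]
  constructor
  · intro h
    by_cases ha : ∃ v, R u v
    · rw [dif_pos ha] at h
      exact (Option.some.inj h) ▸ ha.choose_spec
    · rw [dif_neg ha] at h
      exact absurd h (by simp)
  · intro h
    have ha : ∃ v, R u v := ⟨v, h⟩
    rw [dif_pos ha]
    exact congrArg some (h1 u _ _ ha.choose_spec h)

lemma pequivOfRel_eq_none {U : Type} {R : U → U → Prop}
    {h1 : ∀ u a b, R u a → R u b → a = b} {h2 : ∀ a b u, R a u → R b u → a = b} {u : U} :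
    pequivOfRel R h1 h2 u = none ↔ ∀ v, ¬ R u v := by
  rw [Option.eq_none_iff_forall_ne_some]
  exact forall_congr' fun v => not_congr pequivOfRel_eq_some

/-- a fixed coordinate equals a fixed value for at most a fraction `1 / B` of the functions -/
lemma card_filter_coord_mul_le {C : Type} [Fintype C] [DecidableEq C] {B : ℕ} (c : C)
    (b : Fin B) :
    (Finset.univ.filter (fun g : C → Fin B => g c = b)).card * B
      ≤ Fintype.card (C → Fin B) := by
  have h : ((Finset.univ.filter (fun g : C → Fin B => g c = b)) ×ˢ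
      (Finset.univ : Finset (Fin B))).card ≤ (Finset.univ : Finset (C → Fin B)).card := by
    apply Finset.card_le_card_of_injOn (fun x => Function.update x.1 c x.2)
    · intro x _
      simp only [coe_univ, Set.mem_univ]
    · rintro ⟨g, x⟩ hg ⟨g', x'⟩ hg' heq
      simp only [Finset.coe_product, Set.mem_prod, Finset.mem_coe, Finset.mem_filter,
        Finset.mem_univ, true_and, and_true] at hg hg'
      simp only at heq
      have hx : x = x' := by
        have := congrFun heq c
        simpa using this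
      have hgg : g = g' := by
        funext a
        by_cases ha : a = c
        · rw [ha, hg, hg']
        · have := congrFun heq a
          simpa [Function.update_of_ne ha] using this
      rw [hx, hgg]
  rw [Finset.card_product, Finset.card_univ, Finset.card_univ, Fintype.card_fin] at h
  exact h

theorem box_extension {Z : Type} [Fintype Z] [DecidableEq Z] [Nonempty Z] {d : ℕ}
    (T : Fin d → (Z ≃. Z)) {W : Type*} [AddCommGroup W] [Module ℝ W] (D : Fin d → Z → W)
    (B : ℕ) (hB : 0 < B) {η : ℝ}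
    (hη : ∀ s, ((Finset.univ.filter (fun z => T s z = none)).card : ℝ) ≤ η * Fintype.card Z) :
    ∃ (U : Type) (_ : Fintype U) (_ : DecidableEq U) (_ : Nonempty U) (T' : Fin d → (U ≃. U))
      (q : U → Z) (f : U → W),
      (∀ s u u', T' s u = some u' → T s (q u) = some (q u') ∧ f u' - f u = D s (q u)) ∧
      (∀ s, ((Finset.univ.filter (fun u => T' s u = none)).card : ℝ)
        ≤ (η + 1 / B) * Fintype.card U) := by
  classical
  have : NeZero B := ⟨hB.ne'⟩
  let G : Type := Fin d × Z → Fin B
  let R : Fin d → (Z × G) → (Z × G) → Prop := fun s u v =>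
    T s u.1 = some v.1 ∧ (v.2 (s, u.1)).val = (u.2 (s, u.1)).val + 1 ∧
      ∀ c, c ≠ (s, u.1) → v.2 c = u.2 c
  have hR1 : ∀ s u a b, R s u a → R s u b → a = b := by
    rintro s u ⟨a1, a2⟩ ⟨b1, b2⟩ ⟨ha1, ha2, ha3⟩ ⟨hb1, hb2, hb3⟩
    have e1 : a1 = b1 := Option.some.inj (ha1.symm.trans hb1)
    have e2 : a2 = b2 := by
      funext c
      by_cases hc : c = (s, u.1)
      · rw [hc]
        exact Fin.ext (ha2.trans hb2.symm)
      · exact (ha3 c hc).trans (hb3 c hc).symm
    rw [e1, e2]
  have hR2 : ∀ s a b u, R s a u → R s b u → a = b := by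
    rintro s ⟨a1, a2⟩ ⟨b1, b2⟩ u ⟨ha1, ha2, ha3⟩ ⟨hb1, hb2, hb3⟩
    have e1 : a1 = b1 := (T s).inj (b := u.1) ha1 hb1
    subst e1
    have e2 : a2 = b2 := by
      funext c
      by_cases hc : c = (s, a1)
      · rw [hc]
        apply Fin.ext
        have := ha2.symm.trans hb2
        simp only at this
        omega
      · exact (ha3 c hc).symm.trans (hb3 c hc)
    rw [e2]
  refine ⟨Z × G, inferInstance, inferInstance, inferInstance,
    fun s => pequivOfRel (R s) (hR1 s) (hR2 s), Prod.fst,
    fun u => ∑ c : Fin d × Z, ((u.2 c).val : ℝ) • D c.1 c.2, ?_, ?_⟩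
  · intro s u v huv
    rw [pequivOfRel_eq_some] at huv
    obtain ⟨h1, h2, h3⟩ := huv
    refine ⟨h1, ?_⟩
    rw [← Finset.sum_sub_distrib, Finset.sum_eq_single (s, u.1)]
    · rw [← sub_smul, h2]
      push_cast
      rw [add_sub_cancel_left, one_smul]
    · intro c _ hc
      rw [h3 c hc, sub_self]
    · intro h
      exact absurd (Finset.mem_univ _) h
  · intro s
    have hsub : (Finset.univ.filter (fun u : Z × G =>
        pequivOfRel (R s) (hR1 s) (hR2 s) u = none))
        ⊆ ((Finset.univ.filter (fun z => T s z = none)) ×ˢ (Finset.univ : Finset G)) ∪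
          (Finset.univ : Finset Z).biUnion (fun z =>
            (Finset.univ.filter (fun g : G => g (s, z) = ⟨B - 1, by omega⟩)).image
              (fun g => (z, g))) := by
      rintro ⟨z, g⟩ hu
      simp only [Finset.mem_filter, Finset.mem_univ, true_and] at hu
      rw [pequivOfRel_eq_none] at hu
      simp only [Finset.mem_union, Finset.mem_product, Finset.mem_filter, Finset.mem_univ,
        true_and, and_true, Finset.mem_biUnion, Finset.mem_image, Prod.mk.injEq]
      rcases hT : T s z with _ | z'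
      · exact Or.inl rfl
      · right
        refine ⟨z, g, ?_, rfl, rfl⟩
        by_contra hne
        have hlt : (g (s, z)).val + 1 < B := by
          have h1 := (g (s, z)).isLt
          have h2 : (g (s, z)).val ≠ B - 1 := fun h => hne (Fin.ext h)
          omega
        refine hu (z', Function.update g (s, z) ⟨(g (s, z)).val + 1, hlt⟩) ⟨hT, ?_, ?_⟩
        · simp
        · intro c hc
          exact Function.update_of_ne hc _ _
    have hcard1 : ((Finset.univ.filter (fun z => T s z = none)) ×ˢ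
        (Finset.univ : Finset G)).card
        = (Finset.univ.filter (fun z => T s z = none)).card * Fintype.card G := by
      rw [Finset.card_product, Finset.card_univ]
    have hcard2 : ((Finset.univ : Finset Z).biUnion (fun z =>
            (Finset.univ.filter (fun g : G => g (s, z) = ⟨B - 1, by omega⟩)).image
              (fun g => (z, g)))).card * B ≤ Fintype.card Z * Fintype.card G := by
      calc _ ≤ (∑ z : Z, ((Finset.univ.filter
              (fun g : G => g (s, z) = ⟨B - 1, by omega⟩)).image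
              (fun g => (z, g))).card) * B := Nat.mul_le_mul_right _ Finset.card_biUnion_le
        _ = ∑ z : Z, ((Finset.univ.filter
              (fun g : G => g (s, z) = ⟨B - 1, by omega⟩)).image
              (fun g => (z, g))).card * B := Finset.sum_mul _ _ _
        _ ≤ ∑ _z : Z, Fintype.card G := by
            refine Finset.sum_le_sum fun z _ => ?_
            refine (Nat.mul_le_mul_right _ Finset.card_image_le).trans ?_
            exact card_filter_coord_mul_le (s, z) _
        _ = Fintype.card Z * Fintype.card G := by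
            rw [Finset.sum_const, Finset.card_univ, smul_eq_mul]
    have hBpos : (0 : ℝ) < B := by exact_mod_cast hB
    have hfin : ((Finset.univ.filter (fun u : Z × G =>
        pequivOfRel (R s) (hR1 s) (hR2 s) u = none)).card : ℝ)
        ≤ ((Finset.univ.filter (fun z => T s z = none)).card : ℝ) * Fintype.card G
          + (Fintype.card Z * Fintype.card G : ℝ) / B := by
      have h1 := (Finset.card_le_card hsub).trans (Finset.card_union_le _ _)
      rw [hcard1] at h1
      have h2 : (((Finset.univ : Finset Z).biUnion (fun z =>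
            (Finset.univ.filter (fun g : G => g (s, z) = ⟨B - 1, by omega⟩)).image
              (fun g => (z, g)))).card : ℝ) ≤ (Fintype.card Z * Fintype.card G : ℝ) / B := by
        rw [le_div_iff₀ hBpos]
        exact_mod_cast hcard2
      have h3 : ((Finset.univ.filter (fun u : Z × G =>
        pequivOfRel (R s) (hR1 s) (hR2 s) u = none)).card : ℝ)
          ≤ ((Finset.univ.filter (fun z => T s z = none)).card : ℝ) * Fintype.card G
          + (((Finset.univ : Finset Z).biUnion (fun z =>
            (Finset.univ.filter (fun g : G => g (s, z) = ⟨B - 1, by omega⟩)).image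
              (fun g => (z, g)))).card : ℝ) := by exact_mod_cast h1
      linarith only [h2, h3]
    have hG : (0 : ℝ) ≤ Fintype.card G := by positivity
    calc _ ≤ _ := hfin
      _ ≤ (η * Fintype.card Z) * Fintype.card G + (Fintype.card Z * Fintype.card G : ℝ) / B := by
          gcongr
          exact hη s
      _ = (η + 1 / B) * Fintype.card (Z × G) := by
          rw [Fintype.card_prod]
          push_cast
          ring

end P125
end
end

section

section

/-!
# Approximately spreadable laws on increasing sequences (elementary stepping-up construction)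
-/

namespace P125

open Finset

/-- Approximately spreadable laws on strictly increasing `N`-tuples: the sub-tuples of length at
most `K` have almost the same law. -/
def SpreadLaw (K N : ℕ) (ε : ℝ) : Prop :=
  ∃ (Ω : Type) (_ : Fintype Ω) (n : ℕ) (Y : Ω → Fin N → Fin n), 0 < Fintype.card Ω ∧
    (∀ ω, StrictMono (Y ω)) ∧
    ∀ k, k ≤ K → ∀ α β : Fin k → Fin N, StrictMono α → StrictMono β →
      ∀ f : (Fin k → Fin n) → ℝ, (∀ v, |f v| ≤ 1) →
        |(∑ ω, f (Y ω ∘ α)) - ∑ ω, f (Y ω ∘ β)| ≤ ε * Fintype.card Ω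

/-- digits of the new sequence: follows the spine above `p`, is decremented at `p`, fresh digits
below -/
def dig {c n : ℕ} (p : Fin n) (s ρ : Fin n → Fin c) : Fin n → Fin (c + 1) :=
  fun l => if l < p then (s l).succ else if l = p then (s l).castSucc else (ρ l).succ

def spine {c n : ℕ} (s : Fin n → Fin c) : Fin n → Fin (c + 1) := fun l => (s l).succ

def shiftspine {c n : ℕ} (p : Fin n) (s : Fin n → Fin c) : Fin n → Fin (c + 1) :=
  fun l => if l = p then (s l).castSucc else (s l).succ

lemma dig_lt {c n : ℕ} {p p' : Fin n} (h : p < p') (s ρ ρ' : Fin n → Fin c) :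
    toLex (dig p s ρ) < toLex (dig p' s ρ') := by
  refine ⟨p, ?_, ?_⟩
  · intro j hj
    simp only [Pi.toLex_apply]
    simp [dig, hj, hj.trans h]
  · simp only [Pi.toLex_apply]
    simp [dig, h]

/-- Averages over functions do not depend on the injection through which they are evaluated. -/
lemma sum_comp_injective {R : Type} [Fintype R] {m N : ℕ} (α β : Fin m → Fin N)
    (hα : Function.Injective α) (hβ : Function.Injective β) (h : (Fin m → R) → ℝ) :
    ∑ r : Fin N → R, h (r ∘ α) = ∑ r : Fin N → R, h (r ∘ β) := by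
  obtain ⟨σ, hσ⟩ := (Equiv.Perm.isMultiplyPretransitive (Fin N) m).exists_smul_eq
    (⟨α, hα⟩ : Fin m ↪ Fin N) ⟨β, hβ⟩
  have hσ' : ∀ i, σ (α i) = β i := by
    intro i
    have := congrArg (fun e : Fin m ↪ Fin N => e i) hσ
    simpa only [Function.Embedding.smul_apply, Function.Embedding.coeFn_mk, Equiv.Perm.smul_def] using this
  symm
  rw [← Equiv.sum_comp (Equiv.arrowCongr σ (Equiv.refl R))]
  refine Finset.sum_congr rfl fun r _ => ?_
  congr 1
  funext i
  simp [← hσ']

lemma sum_update {c n : ℕ} (p : Fin n) (F : (Fin n → Fin c) → ℝ) :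
    ∑ s : Fin n → Fin c, ∑ x : Fin c, F (Function.update s p x) = c * ∑ s, F s := by
  have h1 : ∑ s : Fin n → Fin c, ∑ x : Fin c, F (Function.update s p x)
      = ∑ q : (Fin n → Fin c) × Fin c, F (Function.update q.1 p q.2) := by
    rw [Fintype.sum_prod_type]
  have h2 : (c : ℝ) * ∑ s : Fin n → Fin c, F s = ∑ q : (Fin n → Fin c) × Fin c, F q.1 := by
    rw [Fintype.sum_prod_type]
    simp only [mul_sum, sum_const, card_univ, Fintype.card_fin, nsmul_eq_mul]
  rw [h1, h2]
  let e : (Fin n → Fin c) × Fin c ≃ (Fin n → Fin c) × Fin c :=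
    { toFun := fun q => (Function.update q.1 p q.2, q.1 p)
      invFun := fun q => (Function.update q.1 p q.2, q.1 p)
      left_inv := by
        rintro ⟨s, x⟩
        simp
      right_inv := by
        rintro ⟨s, x⟩
        simp }
  rw [← Equiv.sum_comp e (fun q => F q.1)]
  exact Finset.sum_congr rfl fun q _ => rfl

lemma shift_bound {c n : ℕ} {A : Type} (p : Fin n) (Ψ : A → (Fin n → Fin (c + 1)) → ℝ)
    (hΨ : ∀ a w, |Ψ a w| ≤ 1) (W : (Fin n → Fin c) → A)
    (hW : ∀ s x, W (Function.update s p x) = W s) :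
    c * |∑ s, Ψ (W s) (shiftspine p s) - ∑ s, Ψ (W s) (spine s)|
      ≤ 2 * Fintype.card (Fin n → Fin c) := by
  have hA := sum_update p (fun s : Fin n → Fin c => Ψ (W s) (shiftspine p s) - Ψ (W s) (spine s))
  rw [Finset.sum_sub_distrib] at hA
  have hc : (c : ℝ) * |∑ s, Ψ (W s) (shiftspine p s) - ∑ s, Ψ (W s) (spine s)|
      = |(c : ℝ) * (∑ s, Ψ (W s) (shiftspine p s) - ∑ s, Ψ (W s) (spine s))| := by
    rw [abs_mul, Nat.abs_cast]
  rw [hc, ← hA]
  refine (Finset.abs_sum_le_sum_abs _ _).trans ?_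
  have hterm : ∀ s : Fin n → Fin c,
      |∑ x : Fin c, (Ψ (W (Function.update s p x)) (shiftspine p (Function.update s p x))
        - Ψ (W (Function.update s p x)) (spine (Function.update s p x)))| ≤ 2 := by
    intro s
    have e1 : ∀ x : Fin c, shiftspine p (Function.update s p x)
        = Function.update (spine s) p x.castSucc := by
      intro x; funext l
      by_cases hl : l = p
      · subst hl; simp [shiftspine]
      · simp [shiftspine, spine, hl]
    have e2 : ∀ x : Fin c, spine (Function.update s p x)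
        = Function.update (spine s) p x.succ := by
      intro x; funext l
      by_cases hl : l = p
      · subst hl; simp [spine]
      · simp [spine, hl]
    have e3 : ∑ x : Fin c, (Ψ (W (Function.update s p x)) (shiftspine p (Function.update s p x))
        - Ψ (W (Function.update s p x)) (spine (Function.update s p x)))
        = Ψ (W s) (Function.update (spine s) p 0)
          - Ψ (W s) (Function.update (spine s) p (Fin.last c)) := by
      simp only [hW, e1, e2]
      rw [Finset.sum_sub_distrib]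
      have t1 := Fin.sum_univ_castSucc (fun x : Fin (c + 1) =>
        Ψ (W s) (Function.update (spine s) p x))
      have t2 := Fin.sum_univ_succ (fun x : Fin (c + 1) =>
        Ψ (W s) (Function.update (spine s) p x))
      linarith only [t1, t2]
    rw [e3]
    have b1 := abs_le.mp (hΨ (W s) (Function.update (spine s) p 0))
    have b2 := abs_le.mp (hΨ (W s) (Function.update (spine s) p (Fin.last c)))
    rw [abs_le]
    constructor <;> linarith only [b1, b2]
  refine (Finset.sum_le_sum fun s _ => hterm s).trans ?_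
  simp only [sum_const, card_univ, Fintype.card_pi, Fintype.card_fin, prod_const, nsmul_eq_mul, Nat.cast_pow, mul_comm, Std.le_refl]

/-- swapping the low digits of the spine with the fresh digits number `k` -/
def swapEquiv {c n N : ℕ} (p : Fin n) (k : Fin N) :
    (Fin n → Fin c) × (Fin N → Fin n → Fin c) ≃ (Fin n → Fin c) × (Fin N → Fin n → Fin c) where
  toFun q := (fun l => if p < l then q.2 k l else q.1 l,
    Function.update q.2 k (fun l => if p < l then q.1 l else q.2 k l))
  invFun q := (fun l => if p < l then q.2 k l else q.1 l,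
    Function.update q.2 k (fun l => if p < l then q.1 l else q.2 k l))
  left_inv := by
    rintro ⟨s, r⟩
    refine Prod.ext ?_ ?_
    · funext l
      by_cases hl : p < l <;> simp [hl]
    · funext j
      by_cases hj : j = k
      · subst hj
        funext l
        by_cases hl : p < l <;> simp [hl]
      · simp [hj]
  right_inv := by
    rintro ⟨s, r⟩
    refine Prod.ext ?_ ?_
    · funext l
      by_cases hl : p < l <;> simp [hl]
    · funext j
      by_cases hj : j = k
      · subst hj
        funext l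
        by_cases hl : p < l <;> simp [hl]
      · simp [hj]

lemma last_bound {c n N m : ℕ} (hc : 0 < c) (u : Fin m → Fin n) (p : Fin n) (hu : ∀ i, u i < p)
    (α : Fin (m + 1) → Fin N) (hα : Function.Injective α)
    (g : (Fin (m + 1) → Fin n → Fin (c + 1)) → ℝ) (hg : ∀ w, |g w| ≤ 1) :
    |∑ q : (Fin n → Fin c) × (Fin N → Fin n → Fin c),
        g (Fin.snoc (α := fun _ => Fin n → Fin (c + 1))
          (fun i : Fin m => dig (u i) q.1 (q.2 (α i.castSucc)))
          (dig p q.1 (q.2 (α (Fin.last m)))))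
      - ∑ q : (Fin n → Fin c) × (Fin N → Fin n → Fin c),
        g (Fin.snoc (α := fun _ => Fin n → Fin (c + 1))
          (fun i : Fin m => dig (u i) q.1 (q.2 (α i.castSucc))) (spine q.1))|
      ≤ 2 / c * Fintype.card ((Fin n → Fin c) × (Fin N → Fin n → Fin c)) := by
  have hne : ∀ i : Fin m, α i.castSucc ≠ α (Fin.last m) := by
    intro i h
    have := hα h
    exact absurd this (Fin.castSucc_lt_last i).ne
  -- step 1 : the swap
  have h1 : ∑ q : (Fin n → Fin c) × (Fin N → Fin n → Fin c),
        g (Fin.snoc (α := fun _ => Fin n → Fin (c + 1))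
          (fun i : Fin m => dig (u i) q.1 (q.2 (α i.castSucc)))
          (dig p q.1 (q.2 (α (Fin.last m)))))
      = ∑ q : (Fin n → Fin c) × (Fin N → Fin n → Fin c),
        g (Fin.snoc (α := fun _ => Fin n → Fin (c + 1))
          (fun i : Fin m => dig (u i) q.1 (q.2 (α i.castSucc))) (shiftspine p q.1)) := by
    symm
    rw [← Equiv.sum_comp (swapEquiv p (α (Fin.last m)))]
    refine Finset.sum_congr rfl fun q _ => ?_
    have a1 : (fun i : Fin m => dig (u i) (swapEquiv p (α (Fin.last m)) q).1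
        ((swapEquiv p (α (Fin.last m)) q).2 (α i.castSucc)))
        = fun i : Fin m => dig (u i) q.1 (q.2 (α i.castSucc)) := by
      funext i l
      simp only [swapEquiv, Equiv.coe_fn_mk, dig, Function.update_of_ne (hne i)]
      by_cases h1 : l < u i
      · have : ¬ p < l := not_lt.mpr ((h1.trans (hu i)).le)
        simp [h1, this]
      · by_cases h2 : l = u i
        · simp [h2, not_lt.mpr (hu i).le]
        · simp [h1, h2]
    have a2 : shiftspine p (swapEquiv p (α (Fin.last m)) q).1
        = dig p q.1 (q.2 (α (Fin.last m))) := by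
      funext l
      simp only [swapEquiv, Equiv.coe_fn_mk, dig, shiftspine]
      by_cases h1 : l < p
      · simp [h1, h1.ne, not_lt.mpr h1.le]
      · by_cases h2 : l = p
        · simp [h2]
        · have : p < l := lt_of_le_of_ne (not_lt.mp h1) (Ne.symm h2)
          simp [h1, h2, this]
    rw [a1, a2]
  rw [h1]
  -- step 2 : the digit at `p`
  have hcR : (0 : ℝ) < c := by exact_mod_cast hc
  rw [div_mul_eq_mul_div, le_div_iff₀ hcR, mul_comm]
  rw [Fintype.sum_prod_type_right, Fintype.sum_prod_type_right, ← Finset.sum_sub_distrib]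
  have h2 : ∀ r : Fin N → Fin n → Fin c,
      c * |∑ s : Fin n → Fin c, g (Fin.snoc (α := fun _ => Fin n → Fin (c + 1))
            (fun i : Fin m => dig (u i) s (r (α i.castSucc))) (shiftspine p s))
        - ∑ s : Fin n → Fin c, g (Fin.snoc (α := fun _ => Fin n → Fin (c + 1))
            (fun i : Fin m => dig (u i) s (r (α i.castSucc))) (spine s))|
        ≤ 2 * Fintype.card (Fin n → Fin c) := by
    intro r
    refine shift_bound p (fun (a : Fin m → Fin n → Fin (c + 1)) w =>
      g (Fin.snoc (α := fun _ => Fin n → Fin (c + 1)) a w)) (fun a w => hg _)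
      (fun s => fun i : Fin m => dig (u i) s (r (α i.castSucc))) ?_
    intro s x
    funext i l
    simp only [dig]
    by_cases h1 : l < u i
    · have : l ≠ p := (h1.trans (hu i)).ne
      simp [h1, this]
    · by_cases h2 : l = u i
      · have : u i ≠ p := (hu i).ne
        simp [h2, this]
      · simp [h1, h2]
  calc (c : ℝ) * |∑ r : Fin N → Fin n → Fin c,
        (∑ s : Fin n → Fin c, g (Fin.snoc (α := fun _ => Fin n → Fin (c + 1))
            (fun i : Fin m => dig (u i) s (r (α i.castSucc))) (shiftspine p s))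
        - ∑ s : Fin n → Fin c, g (Fin.snoc (α := fun _ => Fin n → Fin (c + 1))
            (fun i : Fin m => dig (u i) s (r (α i.castSucc))) (spine s)))|
      ≤ (c : ℝ) * ∑ r : Fin N → Fin n → Fin c,
        |∑ s : Fin n → Fin c, g (Fin.snoc (α := fun _ => Fin n → Fin (c + 1))
            (fun i : Fin m => dig (u i) s (r (α i.castSucc))) (shiftspine p s))
        - ∑ s : Fin n → Fin c, g (Fin.snoc (α := fun _ => Fin n → Fin (c + 1))
            (fun i : Fin m => dig (u i) s (r (α i.castSucc))) (spine s))| := by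
        exact mul_le_mul_of_nonneg_left (Finset.abs_sum_le_sum_abs _ _) hcR.le
    _ ≤ ∑ _r : Fin N → Fin n → Fin c, (2 * Fintype.card (Fin n → Fin c) : ℝ) := by
        rw [Finset.mul_sum]
        exact Finset.sum_le_sum fun r _ => h2 r
    _ = 2 * (Fintype.card ((Fin n → Fin c) × (Fin N → Fin n → Fin c)) : ℝ) := by
        rw [Finset.sum_const, Finset.card_univ, Fintype.card_prod, nsmul_eq_mul]
        push_cast
        ring

lemma spreadLaw_zero (N : ℕ) {ε : ℝ} (hε : 0 ≤ ε) : SpreadLaw 0 N ε := by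
  refine ⟨Unit, inferInstance, N, fun _ => id, by simp, fun _ => strictMono_id, ?_⟩
  intro k hk α β _ _ f _
  obtain rfl : k = 0 := Nat.le_zero.mp hk
  have : α = β := Subsingleton.elim _ _
  subst this
  simp only [univ_unique, PUnit.default_eq_unit, CompTriple.comp_eq, sum_const, card_singleton, one_smul, sub_self, abs_zero, Fintype.card_unique, Nat.cast_one, mul_one, hε]

lemma spreadLaw_succ {K N : ℕ} {ε : ℝ} (h : SpreadLaw K N ε) {c : ℕ} (hc : 0 < c) :
    SpreadLaw (K + 1) N (ε + 4 / c) := by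
  classical
  obtain ⟨Ω, iΩ, n, D, hcard, hD, hsp⟩ := h
  have hcR : (0 : ℝ) < c := by exact_mod_cast hc
  let J := Lex (Fin n → Fin (c + 1))
  let o : Fin (Fintype.card J) ≃o J := Fintype.orderIsoFinOfCardEq J rfl
  let Q := (Fin n → Fin c) × (Fin N → Fin n → Fin c)
  have : Nonempty (Fin c) := ⟨⟨0, hc⟩⟩
  have hQ : 0 < Fintype.card Q := Fintype.card_pos
  have hQR : (0 : ℝ) < Fintype.card Q := by exact_mod_cast hQ
  have hΩR : (0 : ℝ) < Fintype.card Ω := by exact_mod_cast hcard
  refine ⟨Ω × Q, inferInstance, Fintype.card J,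
    fun w k => o.symm (toLex (dig (D w.1 k) w.2.1 (w.2.2 k))), ?_, ?_, ?_⟩
  · rw [Fintype.card_prod]; exact Nat.mul_pos hcard hQ
  · intro w k k' hk
    exact o.symm.strictMono (dig_lt (hD w.1 hk) _ _ _)
  · intro k hk α β hα hβ f hf
    rcases k with _ | m
    · have : α = β := Subsingleton.elim _ _
      subst this
      simp only [sub_self, abs_zero]
      have h0 : 0 ≤ ε := by
        have := hsp 0 (Nat.zero_le _) (Fin.elim0) (Fin.elim0) (fun i => i.elim0)
          (fun i => i.elim0) (fun _ => 0) (by simp only [abs_zero, zero_le_one, implies_true])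
        simp only [Finset.sum_const_zero, sub_self, abs_zero] at this
        by_contra hneg
        have : ε * (Fintype.card Ω : ℝ) < 0 := mul_neg_of_neg_of_pos (not_le.mp hneg) hΩR
        (clear K N n D hD hsp hcR J o Q hQ hQR hk α hα f hf hβ; linarith)
      (clear * - h0 hc; positivity)
    · let g : (Fin (m + 1) → Fin n → Fin (c + 1)) → ℝ := fun w => f (fun i => o.symm (toLex (w i)))
      have hg : ∀ w, |g w| ≤ 1 := fun w => hf _
      -- the universal function
      let G : (Fin (m + 1) → Fin N) → (Fin m → Fin n) → ℝ := fun γ u =>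
        ∑ q : Q, g (Fin.snoc (α := fun _ => Fin n → Fin (c + 1))
          (fun i : Fin m => dig (u i) q.1 (q.2 (γ i.castSucc))) (spine q.1))
      have hGab : G α = G β := by
        funext u
        simp only [G, Q]
        rw [Fintype.sum_prod_type, Fintype.sum_prod_type]
        refine Finset.sum_congr rfl fun s _ => ?_
        exact sum_comp_injective (R := Fin n → Fin c) (fun i : Fin m => α i.castSucc)
          (fun i : Fin m => β i.castSucc)
          (hα.injective.comp (Fin.castSucc_injective m))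
          (hβ.injective.comp (Fin.castSucc_injective m))
          (fun r => g (Fin.snoc (α := fun _ => Fin n → Fin (c + 1))
            (fun i : Fin m => dig (u i) s (r i)) (spine s)))
      have hG1 : ∀ γ u, |G γ u| ≤ Fintype.card Q := by
        intro γ u
        refine (Finset.abs_sum_le_sum_abs _ _).trans ?_
        refine (Finset.sum_le_sum fun q _ => hg _).trans ?_
        simp only [sum_const, card_univ, nsmul_eq_mul, mul_one, Std.le_refl]
      have key : ∀ γ : Fin (m + 1) → Fin N, StrictMono γ →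
          |(∑ w : Ω × Q, f ((fun k => o.symm (toLex (dig (D w.1 k) w.2.1 (w.2.2 k)))) ∘ γ))
            - ∑ ω : Ω, G γ (fun i : Fin m => D ω (γ i.castSucc))|
          ≤ 2 / c * (Fintype.card Ω * Fintype.card Q) := by
        intro γ hγ
        rw [Fintype.sum_prod_type, ← Finset.sum_sub_distrib]
        refine (Finset.abs_sum_le_sum_abs _ _).trans ?_
        have hω : ∀ ω : Ω, |(∑ q : Q, f ((fun k => o.symm (toLex (dig (D ω k) q.1 (q.2 k)))) ∘ γ))
            - G γ (fun i : Fin m => D ω (γ i.castSucc))| ≤ 2 / c * Fintype.card Q := by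
          intro ω
          have hb := last_bound hc (fun i : Fin m => D ω (γ i.castSucc)) (D ω (γ (Fin.last m)))
            (fun i => hD ω (hγ (Fin.castSucc_lt_last i))) γ hγ.injective g hg
          have he : ∀ q : Q, f ((fun k => o.symm (toLex (dig (D ω k) q.1 (q.2 k)))) ∘ γ)
              = g (Fin.snoc (α := fun _ => Fin n → Fin (c + 1))
                (fun i : Fin m => dig (D ω (γ i.castSucc)) q.1 (q.2 (γ i.castSucc)))
                (dig (D ω (γ (Fin.last m))) q.1 (q.2 (γ (Fin.last m))))) := by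
            intro q
            simp only [g]
            congr 1
            funext i
            refine Fin.lastCases ?_ (fun j => ?_) i
            · simp
            · simp
          simp only [he]
          exact hb
        refine (Finset.sum_le_sum fun ω _ => hω ω).trans ?_
        rw [Finset.sum_const, Finset.card_univ, nsmul_eq_mul]
        apply le_of_eq
        ring
      have hmid : |(∑ ω : Ω, G α (fun i : Fin m => D ω (α i.castSucc)))
          - ∑ ω : Ω, G β (fun i : Fin m => D ω (β i.castSucc))|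
          ≤ ε * Fintype.card Ω * Fintype.card Q := by
        rw [← hGab]
        have := hsp m (Nat.le_of_succ_le_succ hk) (fun i => α i.castSucc) (fun i => β i.castSucc)
          (hα.comp (Fin.strictMono_castSucc)) (hβ.comp (Fin.strictMono_castSucc))
          (fun v => G α v / Fintype.card Q) (by
            intro v
            rw [abs_div, abs_of_pos hQR, div_le_one hQR]
            exact hG1 α v)
        rw [← Finset.sum_div, ← Finset.sum_div, ← sub_div, abs_div, abs_of_pos hQR,
          div_le_iff₀ hQR] at this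
        exact this
      have k1 := key α hα
      have k2 := key β hβ
      rw [Fintype.card_prod]
      push_cast
      rw [abs_le] at k1 k2 hmid ⊢
      have e4 : (ε + 4 / (c : ℝ)) * ((Fintype.card Ω : ℝ) * Fintype.card Q)
          = ε * Fintype.card Ω * Fintype.card Q + 2 / c * (Fintype.card Ω * Fintype.card Q)
            + 2 / c * (Fintype.card Ω * Fintype.card Q) := by ring
      rw [e4]
      constructor <;> linarith only [hmid, k1, k2]

theorem spreadLaw_exists (K N : ℕ) {ε : ℝ} (hε : 0 < ε) : SpreadLaw K N ε := by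
  induction K generalizing ε with
  | zero => exact spreadLaw_zero N hε.le
  | succ K ih =>
    obtain ⟨c, hc⟩ := exists_nat_gt (8 / ε)
    have hcR : (0 : ℝ) < c := lt_trans (by positivity) hc
    have hc0 : 0 < c := by exact_mod_cast hcR
    have h := spreadLaw_succ (ih (half_pos hε)) hc0
    obtain ⟨Ω, iΩ, n, Y, h1, h2, h3⟩ := h
    refine ⟨Ω, iΩ, n, Y, h1, h2, fun k hk α β hα hβ f hf => (h3 k hk α β hα hβ f hf).trans ?_⟩
    have h4 : 4 / (c : ℝ) ≤ ε / 2 := by
      rw [div_le_iff₀ hcR]
      have := (div_lt_iff₀ hε).mp hc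
      linarith only [this]
    have h5 : (0 : ℝ) < Fintype.card Ω := by exact_mod_cast h1
    nlinarith only [h4]

end P125
end
end

section

section

/-!
# Lemma A: finitely many increasing sequences, almost invariant under changes of index sets
-/

namespace P125

open Finset

/-- Two labelings of a finite set with almost the same statistics can be matched by a partial
injection. -/
lemma exists_pequiv_of_close {Z V : Type} [Fintype Z] [DecidableEq Z] (L R : Z → V) (δ : ℝ)
    (h : ∀ f : V → ℝ, (∀ v, |f v| ≤ 1) → |(∑ z, f (L z)) - ∑ z, f (R z)| ≤ δ) :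
    ∃ T : Z ≃. Z, (∀ z z', T z = some z' → L z' = R z) ∧
      ((Finset.univ.filter (fun z => T z = none)).card : ℝ) ≤ δ := by
  classical
  let P : V → Prop := fun v =>
    Fintype.card {z : Z // L z = v} < Fintype.card {z : Z // R z = v}
  have e1 : ∀ v, ¬ P v → Nonempty ({z : Z // R z = v} ↪ {z : Z // L z = v}) := fun v hv =>
    Function.Embedding.nonempty_of_card_le (not_lt.mp hv)
  have e2 : ∀ v, P v → Nonempty ({z : Z // L z = v} ↪ {z : Z // R z = v}) := fun v hv =>
    Function.Embedding.nonempty_of_card_le hv.le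
  let φ0 : ∀ v, ¬ P v → ({z : Z // R z = v} ↪ {z : Z // L z = v}) := fun v hv => (e1 v hv).some
  let ψ0 : ∀ v, P v → ({z : Z // L z = v} ↪ {z : Z // R z = v}) := fun v hv => (e2 v hv).some
  let φ : Z → Z := fun z => if hz : ¬ P (R z) then (φ0 (R z) hz ⟨z, rfl⟩).1 else z
  let ψ : Z → Z := fun z => if hz : P (L z) then (ψ0 (L z) hz ⟨z, rfl⟩).1 else z
  have hφ : ∀ v (hv : ¬ P v) z (hz : R z = v), φ z = (φ0 v hv ⟨z, hz⟩).1 := by
    intro v hv z hz
    subst hz
    simp only [φ]
    rw [dif_pos hv]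
  have hψ : ∀ v (hv : P v) z (hz : L z = v), ψ z = (ψ0 v hv ⟨z, hz⟩).1 := by
    intro v hv z hz
    subst hz
    simp only [ψ]
    rw [dif_pos hv]
  have hLφ : ∀ z, ¬ P (R z) → L (φ z) = R z := by
    intro z hz
    rw [hφ (R z) hz z rfl]
    exact (φ0 (R z) hz ⟨z, rfl⟩).2
  have hRψ : ∀ z, P (L z) → R (ψ z) = L z := by
    intro z hz
    rw [hψ (L z) hz z rfl]
    exact (ψ0 (L z) hz ⟨z, rfl⟩).2
  have φinj : ∀ z z', ¬ P (R z) → ¬ P (R z') → φ z = φ z' → z = z' := by
    intro z z' hz hz' he
    have hR : R z' = R z := by rw [← hLφ z hz, ← hLφ z' hz', he]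
    rw [hφ (R z) hz z rfl, hφ (R z) hz z' hR] at he
    have := (φ0 (R z) hz).injective (Subtype.ext he)
    exact congrArg Subtype.val this
  have ψinj : ∀ z z', P (L z) → P (L z') → ψ z = ψ z' → z = z' := by
    intro z z' hz hz' he
    have hR : L z' = L z := by rw [← hRψ z hz, ← hRψ z' hz', he]
    rw [hψ (L z) hz z rfl, hψ (L z) hz z' hR] at he
    have := (ψ0 (L z) hz).injective (Subtype.ext he)
    exact congrArg Subtype.val this
  let T : Z ≃. Z :=
    { toFun := fun z => if ¬ P (R z) then some (φ z) else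
        if hz : ∃ z', P (L z') ∧ ψ z' = z then some hz.choose else none
      invFun := fun z' => if P (L z') then some (ψ z') else
        if hz : ∃ z, ¬ P (R z) ∧ φ z = z' then some hz.choose else none
      inv := by
        intro z z'
        constructor
        · intro hz
          by_cases h1 : P (L z')
          · rw [if_pos h1] at hz
            have hz2 : ψ z' = z := Option.some_inj.mp hz
            have h2 : P (R z) := by rw [← hz2, hRψ z' h1]; exact h1
            have h3 : ∃ z'', P (L z'') ∧ ψ z'' = z := ⟨z', h1, hz2⟩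
            rw [if_neg (not_not.mpr h2), dif_pos h3]
            have h4 := h3.choose_spec
            exact congrArg some (ψinj _ _ h4.1 h1 (h4.2.trans hz2.symm))
          · rw [if_neg h1] at hz
            by_cases h3 : ∃ z, ¬ P (R z) ∧ φ z = z'
            · rw [dif_pos h3] at hz
              have h4 := h3.choose_spec
              have h5 : h3.choose = z := Option.some_inj.mp hz
              rw [h5] at h4
              rw [if_pos h4.1, h4.2]
            · rw [dif_neg h3] at hz
              exact absurd hz (by simp)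
        · intro hz
          by_cases h1 : P (R z)
          · rw [if_neg (not_not.mpr h1)] at hz
            by_cases h3 : ∃ z'', P (L z'') ∧ ψ z'' = z
            · rw [dif_pos h3] at hz
              have h4 := h3.choose_spec
              have h5 : h3.choose = z' := Option.some_inj.mp hz
              rw [h5] at h4
              rw [if_pos h4.1, h4.2]
            · rw [dif_neg h3] at hz
              exact absurd hz (by simp)
          · rw [if_pos h1] at hz
            have hz2 : φ z = z' := Option.some_inj.mp hz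
            have h2 : ¬ P (L z') := by rw [← hz2, hLφ z h1]; exact h1
            have h3 : ∃ z, ¬ P (R z) ∧ φ z = z' := ⟨z, h1, hz2⟩
            rw [if_neg h2, dif_pos h3]
            have h4 := h3.choose_spec
            exact congrArg some (φinj _ _ h4.1 h1 (h4.2.trans hz2.symm)) }
  have hT : ∀ z, T z = if ¬ P (R z) then some (φ z) else
        if hz : ∃ z', P (L z') ∧ ψ z' = z then some hz.choose else none := fun z => rfl
  refine ⟨T, ?_, ?_⟩
  · intro z z' hz
    rw [hT] at hz
    by_cases h1 : P (R z)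
    · rw [if_neg (not_not.mpr h1)] at hz
      by_cases h3 : ∃ z'', P (L z'') ∧ ψ z'' = z
      · rw [dif_pos h3] at hz
        have h4 := h3.choose_spec
        have h5 : h3.choose = z' := Option.some_inj.mp hz
        rw [h5] at h4
        rw [← h4.2, hRψ z' h4.1]
      · rw [dif_neg h3] at hz
        exact absurd hz (by simp)
    · rw [if_pos h1] at hz
      have hz2 : φ z = z' := Option.some_inj.mp hz
      rw [← hz2, hLφ z h1]
  · -- counting
    have hU : (Finset.univ.filter (fun z => T z = none))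
        ∪ (Finset.univ.filter (fun z' => P (L z'))).image ψ
        = Finset.univ.filter (fun z => P (R z)) := by
      ext z
      simp only [mem_union, mem_filter, mem_univ, true_and, mem_image]
      constructor
      · rintro (hz | ⟨z', hz', rfl⟩)
        · by_contra h1
          rw [hT, if_pos h1] at hz
          exact absurd hz (by simp)
        · rw [hRψ z' hz']; exact hz'
      · intro h1
        by_cases h3 : ∃ z'', P (L z'') ∧ ψ z'' = z
        · right; exact h3
        · left
          rw [hT, if_neg (not_not.mpr h1), dif_neg h3]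
    have hdisj : Disjoint (Finset.univ.filter (fun z => T z = none))
        ((Finset.univ.filter (fun z' => P (L z'))).image ψ) := by
      rw [Finset.disjoint_left]
      intro z hz hz'
      simp only [mem_filter, mem_univ, true_and, mem_image] at hz hz'
      obtain ⟨z', h1, rfl⟩ := hz'
      rw [hT, if_neg (not_not.mpr (by rw [hRψ z' h1]; exact h1)),
        dif_pos ⟨z', h1, rfl⟩] at hz
      exact absurd hz (by simp)
    have hcard := Finset.card_union_of_disjoint hdisj
    rw [hU, Finset.card_image_of_injOn (by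
      intro z hz z' hz' he
      simp only [coe_filter, mem_univ, true_and, Set.mem_ofPred_eq] at hz hz'
      exact ψinj z z' hz hz' he)] at hcard
    have h5 := h (fun v => if P v then 1 else 0) (by
      intro v
      by_cases hv : P v <;> simp [hv])
    rw [Finset.sum_boole, Finset.sum_boole] at h5
    have h6 := (abs_le.mp h5).1
    have h7 : ((Finset.univ.filter (fun z => P (R z))).card : ℝ)
        = (Finset.univ.filter (fun z => T z = none)).card
          + (Finset.univ.filter (fun z' => P (L z'))).card := by exact_mod_cast hcard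
    linarith only [h6, h7]

/-- Finitely many increasing sequences of natural numbers such that, for each of `d` prescribed
pairs of index patterns, the values on the first pattern and the values on the second pattern have
almost the same statistics, so that a partial injection matches them outside a small proportion. -/
theorem lemmaA_gen (d k : ℕ) (i1 i2 : Fin d → ℕ → ℕ)
    (h1 : ∀ s, StrictMono (i1 s)) (h2 : ∀ s, StrictMono (i2 s)) (η : ℝ) (hη : 0 < η) :
    ∃ n : ℕ, 0 < n ∧ ∃ (a : Fin n → ℕ → ℕ) (T : Fin d → (Fin n ≃. Fin n)),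
      (∀ z, StrictMono (a z)) ∧
      (∀ s, ((Finset.univ.filter (fun z => T s z = none)).card : ℝ) ≤ η * n) ∧
      (∀ s z z', T s z = some z' → ∀ q, q < k → a z' (i1 s q) = a z (i2 s q)) := by
  let N : ℕ := (∑ s, ∑ q ∈ Finset.range k, (i1 s q + i2 s q)) + 1
  have hle : ∀ s q, q < k → i1 s q + i2 s q < N := by
    intro s q hq
    have e1 : i1 s q + i2 s q ≤ ∑ q ∈ Finset.range k, (i1 s q + i2 s q) :=
      Finset.single_le_sum (f := fun q => i1 s q + i2 s q) (fun _ _ => Nat.zero_le _)
        (Finset.mem_range.mpr hq)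
    have e2 : ∑ q ∈ Finset.range k, (i1 s q + i2 s q)
        ≤ ∑ s, ∑ q ∈ Finset.range k, (i1 s q + i2 s q) :=
      Finset.single_le_sum (f := fun s => ∑ q ∈ Finset.range k, (i1 s q + i2 s q))
        (fun _ _ => Nat.zero_le _) (Finset.mem_univ s)
    exact Nat.lt_succ_of_le (e1.trans e2)
  have hN1 : ∀ s q, q < k → i1 s q < N := fun s q hq => lt_of_le_of_lt (Nat.le_add_right _ _) (hle s q hq)
  have hN2 : ∀ s q, q < k → i2 s q < N := fun s q hq => lt_of_le_of_lt (Nat.le_add_left _ _) (hle s q hq)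
  obtain ⟨Ω, iΩ, n', Y, hcard, hY, hsp⟩ := spreadLaw_exists k N hη
  let e : Fin (Fintype.card Ω) ≃ Ω := (Fintype.equivFin Ω).symm
  let a : Fin (Fintype.card Ω) → ℕ → ℕ := fun z k =>
    if hk : k < N then (Y (e z) ⟨k, hk⟩ : ℕ) else n' + k
  have ha : ∀ z, StrictMono (a z) := by
    intro z k k' hkk
    simp only [a]
    by_cases h1 : k' < N
    · have h0 : k < N := hkk.trans h1
      rw [dif_pos h0, dif_pos h1]
      exact hY (e z) (show (⟨k, h0⟩ : Fin N) < ⟨k', h1⟩ from hkk)
    · rw [dif_neg h1]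
      by_cases h0 : k < N
      · rw [dif_pos h0]
        have := (Y (e z) ⟨k, h0⟩).2
        omega
      · rw [dif_neg h0]; omega
  have hT : ∀ s : Fin d, ∃ T : Fin (Fintype.card Ω) ≃. Fin (Fintype.card Ω),
      (∀ z z', T z = some z' → ∀ q, q < k → a z' (i1 s q) = a z (i2 s q)) ∧
      ((Finset.univ.filter (fun z => T z = none)).card : ℝ) ≤ η * (Fintype.card Ω : ℝ) := by
    intro s
    let α : Fin k → Fin N := fun q => ⟨i1 s q, hN1 s q q.2⟩
    let β : Fin k → Fin N := fun q => ⟨i2 s q, hN2 s q q.2⟩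
    have hα : StrictMono α := fun q q' hq => h1 s hq
    have hβ : StrictMono β := fun q q' hq => h2 s hq
    obtain ⟨T, hT1, hT2⟩ := exists_pequiv_of_close
      (fun z : Fin (Fintype.card Ω) => Y (e z) ∘ α) (fun z => Y (e z) ∘ β)
      (η * (Fintype.card Ω : ℝ)) (by
        intro f hf
        have := hsp k le_rfl α β hα hβ f hf
        rw [← Equiv.sum_comp e (fun ω => f (Y ω ∘ α)),
          ← Equiv.sum_comp e (fun ω => f (Y ω ∘ β))] at this
        exact this)
    refine ⟨T, ?_, hT2⟩
    intro z z' hz q hq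
    have h3 := congrFun (hT1 z z' hz) ⟨q, hq⟩
    simp only [Function.comp_apply, α, β] at h3
    simp only [a]
    rw [dif_pos (hN1 s q hq), dif_pos (hN2 s q hq)]
    exact congrArg Fin.val h3
  choose T hT1 hT2 using hT
  exact ⟨Fintype.card Ω, hcard, a, T, ha, hT2, hT1⟩

end P125
end
end

section

section

/-!
# P125 : long James data in `X` give James families for `X`
-/

namespace P125

open Finset

variable {X : Type*} [NormedAddCommGroup X] [NormedSpace ℝ X]

/-- Long James data for the primal pairing are impossible if `X` has the Markov inequality. -/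
theorem jbound_primal {p K : ℝ} (hp : 1 < p) (hX : MarkovIneq (fun x : X => ‖x‖) p K)
    (core : ∀ θ : ℝ, 0 < θ → ¬ JamesFamily p K θ) : JBound (pairPrimal X) := by
  intro lam hlam
  by_contra hcon
  push Not at hcon
  apply core (lam / 2) (by positivity)
  intro k
  obtain ⟨x₀, a, -, ⟨n, μ, M, g, c, hμ0, hμ1, hM, hg, -, -, h0, hc, hca⟩, ha⟩ := hcon k
  set θ : ℝ := lam / 2 with hθdef
  have hθ : 0 < θ := by positivity
  have hcθ : ∀ j, j < k → θ < c j := by
    intro j hj
    have h1 := hca j hj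
    have h2 : lam / 2 < lam * a := by nlinarith only [hlam, ha]
    linarith only [hθdef, h1, h2]
  set v : ℕ → Fin n → X := fun l i => M (l + 1) i with hv
  refine ⟨lpSeminorm μ hμ0 (fun i => Finsupp.linearCombination ℝ (fun l => v l i)) p hp.le,
    ?_, ?_, markovIneq_lpSeminorm _ _ _ _ hX⟩
  · intro j
    apply lpSeminorm_le_of_forall_le μ hμ0 hμ1 _ hp.le zero_le_one
    intro i
    rw [Finsupp.linearCombination_single, one_smul, hv]
    exact hM _ _
  · intro x hx r
    rcases lt_or_ge r k with hrk | hrk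
    · refine tail_le_lpSeminorm μ hμ0 hμ1 v hp.le hθ.le (k := k) (r := r)
        (fun i => (θ / c r) • g r i) (fun i => ?_) ?_ x hx
      · have h1 := hcθ r hrk
        rw [norm_smul, Real.norm_of_nonneg (div_nonneg hθ.le (hθ.le.trans h1.le))]
        calc θ / c r * ‖g r i‖ ≤ 1 * 1 := by
              apply mul_le_mul _ (hg _ _) (norm_nonneg _) zero_le_one
              rw [div_le_one (by linarith only [hθ, h1])]
              exact h1.le
          _ = 1 := one_mul 1
      · intro l hl
        have hcj := hcθ _ hrk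
        have e1 : ∑ i, μ i * ((θ / c r) • g r i) (v l i)
            = (θ / c r) * ∑ i, μ i * (pairPrimal X) (M (l + 1) i) (g r i) := by
          rw [Finset.mul_sum]
          refine Finset.sum_congr rfl fun i _ => ?_
          simp only [hv, FunLike.coe_smul, Pi.smul_apply, smul_eq_mul, pairPrimal,
            LinearMap.mk₂_apply]
          ring
        rw [e1]
        by_cases hr : r ≤ l
        · rw [if_pos hr, hc _ hrk (l + 1) (by omega), div_mul_cancel₀]
          linarith only [hθ, hcj]
        · rw [if_neg hr, h0 _ hrk (l + 1) (by omega), mul_zero]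
    · have : tailSum x r = 0 := by
        unfold tailSum
        rw [Finset.filter_false_of_mem, Finset.sum_empty]
        intro j hj
        have := hx j hj
        omega
      rw [this, abs_zero, mul_zero]
      exact apply_nonneg _ _

end P125
end
end

section

section

/-!
# P125 : uniform smoothness by Lindenstrauss duality

If the dual `X*` of a normed space `X` carries an equivalent uniformly convex norm `M` (not
necessarily a dual norm), then `N x = sup {f x : M f ≤ 1}` is an equivalent uniformly smooth norm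
on `X`.
-/

namespace P125

section Duality

variable {X : Type*} [NormedAddCommGroup X] [NormedSpace ℝ X]

/-- values at `x` of the functionals of `M`-norm at most one -/
def predualSet (M : Seminorm ℝ (StrongDual ℝ X)) (x : X) : Set ℝ :=
  (fun f : StrongDual ℝ X => f x) '' {f | M f ≤ 1}

lemma predualSet_nonempty (M : Seminorm ℝ (StrongDual ℝ X)) (x : X) :
    (predualSet M x).Nonempty :=
  ⟨0, 0, by simp only [Set.mem_ofPred_eq, map_zero, zero_le_one], by simp⟩

lemma predualSet_bdd (M : Seminorm ℝ (StrongDual ℝ X)) {a : ℝ} (ha : 0 < a)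
    (hM : ∀ f, a * ‖f‖ ≤ M f) (x : X) : ∀ r ∈ predualSet M x, r ≤ a⁻¹ * ‖x‖ := by
  rintro r ⟨f, hf, rfl⟩
  have h1 : ‖f‖ ≤ a⁻¹ := by
    have := (hM f).trans hf
    rw [inv_eq_one_div, le_div_iff₀ ha]
    linarith
  calc f x ≤ ‖f x‖ := Real.le_norm_self _
    _ ≤ ‖f‖ * ‖x‖ := f.le_opNorm x
    _ ≤ a⁻¹ * ‖x‖ := by gcongr

lemma predualSet_bddAbove (M : Seminorm ℝ (StrongDual ℝ X)) {a : ℝ} (ha : 0 < a)
    (hM : ∀ f, a * ‖f‖ ≤ M f) (x : X) : BddAbove (predualSet M x) :=
  ⟨a⁻¹ * ‖x‖, fun r hr => predualSet_bdd M ha hM x r hr⟩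

/-- The predual norm of `M`. -/
noncomputable def predualNorm (M : Seminorm ℝ (StrongDual ℝ X)) {a : ℝ} (ha : 0 < a)
    (hM : ∀ f, a * ‖f‖ ≤ M f) : Seminorm ℝ X :=
  Seminorm.of (fun x => sSup (predualSet M x))
    (by
      intro x y
      apply csSup_le (predualSet_nonempty M _)
      rintro r ⟨f, hf, rfl⟩
      simp only [map_add]
      exact add_le_add (le_csSup (predualSet_bddAbove M ha hM x) ⟨f, hf, rfl⟩)
        (le_csSup (predualSet_bddAbove M ha hM y) ⟨f, hf, rfl⟩))
    (by
      have key : ∀ (c : ℝ) (x : X), sSup (predualSet M (c • x)) ≤ ‖c‖ * sSup (predualSet M x) := by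
        intro c x
        apply csSup_le (predualSet_nonempty M _)
        rintro r ⟨f, hf, rfl⟩
        simp only [map_smul, smul_eq_mul]
        rcases le_total 0 c with hc | hc
        · rw [Real.norm_of_nonneg hc]
          exact mul_le_mul_of_nonneg_left
            (le_csSup (predualSet_bddAbove M ha hM x) ⟨f, hf, rfl⟩) hc
        · rw [Real.norm_of_nonpos hc]
          have : (-f) x ≤ sSup (predualSet M x) :=
            le_csSup (predualSet_bddAbove M ha hM x)
              ⟨-f, by simpa [map_neg_eq_map] using hf, rfl⟩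
          have h2 : c * f x = (-c) * ((-f) x) := by simp
          rw [h2]
          exact mul_le_mul_of_nonneg_left this (by linarith)
      intro c x
      apply le_antisymm (key c x)
      rcases eq_or_ne c 0 with rfl | hc
      · simp only [norm_zero, zero_mul, zero_smul]
        exact le_csSup (predualSet_bddAbove M ha hM 0) ⟨0, by simp, by simp⟩
      · have h := key c⁻¹ (c • x)
        rw [smul_smul, inv_mul_cancel₀ hc, one_smul, norm_inv] at h
        have hc' : 0 < ‖c‖ := norm_pos_iff.mpr hc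
        calc ‖c‖ * sSup (predualSet M x) ≤ ‖c‖ * (‖c‖⁻¹ * sSup (predualSet M (c • x))) := by
              gcongr
          _ = sSup (predualSet M (c • x)) := by
              rw [← mul_assoc, mul_inv_cancel₀ hc'.ne', one_mul])

lemma le_predualNorm (M : Seminorm ℝ (StrongDual ℝ X)) {a : ℝ} (ha : 0 < a)
    (hM : ∀ f, a * ‖f‖ ≤ M f) (x : X) (f : StrongDual ℝ X) (hf : M f ≤ 1) :
    f x ≤ predualNorm M ha hM x :=
  le_csSup (predualSet_bddAbove M ha hM x) ⟨f, hf, rfl⟩

lemma le_mul_predualNorm (M : Seminorm ℝ (StrongDual ℝ X)) {a : ℝ} (ha : 0 < a)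
    (hM : ∀ f, a * ‖f‖ ≤ M f) (x : X) (f : StrongDual ℝ X) :
    f x ≤ M f * predualNorm M ha hM x := by
  rcases (apply_nonneg M f).eq_or_lt with h | h
  · have h0 : f = 0 := by
      have := hM f
      rw [← h] at this
      have h3 : ‖f‖ ≤ 0 := by
        by_contra hcon
        push Not at hcon
        have := mul_pos ha hcon
        linarith
      exact norm_le_zero_iff.mp h3
    simp [h0]
  · have h1 : M ((M f)⁻¹ • f) ≤ 1 := by
      rw [map_smul_eq_mul, norm_inv, Real.norm_of_nonneg h.le, inv_mul_cancel₀ h.ne']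
    have h2 := le_predualNorm M ha hM x _ h1
    simp only [FunLike.coe_smul, Pi.smul_apply, smul_eq_mul] at h2
    calc f x = M f * ((M f)⁻¹ * f x) := by rw [← mul_assoc, mul_inv_cancel₀ h.ne', one_mul]
      _ ≤ M f * predualNorm M ha hM x := mul_le_mul_of_nonneg_left h2 h.le

/-- **Lindenstrauss duality** (predual form).  An equivalent uniformly convex norm on the dual
space gives an equivalent uniformly smooth norm on the space. -/
theorem smooth_of_dual (h : Superreflexive (X →L[ℝ] ℝ)) :
    ∃ N : Seminorm ℝ X, EquivalentNorm N ∧ UniformlySmoothNorm N := by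
  obtain ⟨M, ⟨a, b, ha, hb, hab⟩, hc⟩ := h
  have hM : ∀ f, a * ‖f‖ ≤ M f := fun f => (hab f).1
  refine ⟨predualNorm M ha hM, ⟨b⁻¹, a⁻¹, inv_pos.mpr hb, inv_pos.mpr ha, fun x => ⟨?_, ?_⟩⟩, ?_⟩
  · obtain ⟨f, hf1, hf2⟩ := exists_dual_vector'' ℝ x
    have h1 : M (b⁻¹ • f) ≤ 1 := by
      rw [map_smul_eq_mul, norm_inv, Real.norm_of_nonneg hb.le]
      calc b⁻¹ * M f ≤ b⁻¹ * (b * ‖f‖) := by
            gcongr
            exact (hab f).2
        _ = ‖f‖ := by rw [← mul_assoc, inv_mul_cancel₀ hb.ne', one_mul]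
        _ ≤ 1 := hf1
    have h2 := le_predualNorm M ha hM x _ h1
    simp only [FunLike.coe_smul, Pi.smul_apply, smul_eq_mul] at h2
    rw [hf2] at h2
    simpa only [ge_iff_le, Real.ringHom_apply] using h2
  · exact csSup_le (predualSet_nonempty M x) (predualSet_bdd M ha hM x)
  · intro η hη
    obtain ⟨δ, hδ, hconv⟩ := hc (min (2 * η) 2) (by positivity) (min_le_right _ _)
    refine ⟨δ, hδ, fun τ hτ hτδ x y hx hy => ?_⟩
    have key : ∀ f g : StrongDual ℝ X, M f ≤ 1 → M g ≤ 1 →
        f (x + τ • y) + g (x - τ • y) ≤ 2 + 2 * η * τ := by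
      intro f g hf hg
      have e1 : f (x + τ • y) + g (x - τ • y) = (f + g) x + τ * (f - g) y := by
        simp only [map_add, map_smul, smul_eq_mul, map_sub, add_apply, sub_apply]
        ring
      have e2 : (f + g) x ≤ M (f + g) := by
        have := le_mul_predualNorm M ha hM x (f + g)
        rwa [hx, mul_one] at this
      have e3 : (f - g) y ≤ M (f - g) := by
        have := le_mul_predualNorm M ha hM y (f - g)
        rwa [hy, mul_one] at this
      have e4 : M (f + g) ≤ 2 := by
        have := map_add_le_add M f g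
        linarith only [hf, hg, this]
      have e5 : M (f - g) ≤ 2 := by
        have := map_sub_le_add M f g
        linarith only [hf, hg, this]
      have e6 : τ * (f - g) y ≤ τ * M (f - g) := mul_le_mul_of_nonneg_left e3 hτ.le
      rw [e1]
      rcases le_total (min (2 * η) 2) (M (f - g)) with hcase | hcase
      · have h7 := hconv f g hf hg hcase
        rw [map_smul_eq_mul, Real.norm_of_nonneg (by norm_num)] at h7
        have h8 : M (f + g) ≤ 2 - 2 * δ := by linarith only [h7]
        have h9 : τ * M (f - g) ≤ τ * 2 := mul_le_mul_of_nonneg_left e5 hτ.le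
        have h10 : 0 ≤ 2 * η * τ := by positivity
        linarith only [hτδ, e2, e6, h7, h9, h10]
      · have h7 : M (f - g) ≤ 2 * η := hcase.trans (min_le_left _ _)
        have h8 : τ * M (f - g) ≤ τ * (2 * η) := mul_le_mul_of_nonneg_left h7 hτ.le
        linarith only [e2, e4, e6, h8]
    have h1 : ∀ f : StrongDual ℝ X, M f ≤ 1 →
        f (x + τ • y) + predualNorm M ha hM (x - τ • y) ≤ 2 + 2 * η * τ := by
      intro f hf
      have : predualNorm M ha hM (x - τ • y) ≤ 2 + 2 * η * τ - f (x + τ • y) := by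
        apply csSup_le (predualSet_nonempty M _)
        rintro r ⟨g, hg, rfl⟩
        have := key f g hf hg
        simp only
        linarith only [this]
      linarith only [this]
    have h2 : predualNorm M ha hM (x + τ • y)
        ≤ 2 + 2 * η * τ - predualNorm M ha hM (x - τ • y) := by
      apply csSup_le (predualSet_nonempty M _)
      rintro r ⟨f, hf, rfl⟩
      have := h1 f hf
      simp only
      linarith
    linarith only [h2]

end Duality

end P125
end
end

section

section

/-!
# P125 : from a James family of seminorms to a seminorm monotone under all monotone maps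

* `MarkovIneq.comp`, `MarkovIneq.of_tendsto`: the Markov type inequality passes to compositions
  with additive maps and to pointwise limits;
* `exists_ulim`: ultralimits of bounded families of seminorms;
* `itU`: iterated ultrafilter on increasing sequences, exactly spreadable (`itU_spread`);
* `exists_spreading`: a spreading seminorm;
* `exists_monotone_sn`: block averages give a seminorm which does not increase under
  `Finsupp.mapDomain` of any monotone map;
* `exists_mono`, `exists_mono_of_family`: final statements.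
-/

namespace P125

open Finset Filter Topology

/-- the `l_1` norm of a finitely supported sequence -/
noncomputable def l1 (x : ℕ →₀ ℝ) : ℝ := ∑ j ∈ x.support, |x j|

theorem sn_sum_le {ι : Type*} (N : Seminorm ℝ (ℕ →₀ ℝ)) (s : Finset ι) (f : ι → (ℕ →₀ ℝ)) :
    N (∑ i ∈ s, f i) ≤ ∑ i ∈ s, N (f i) :=
  Finset.le_sum_of_subadditive N (map_zero N).le (map_add_le_add N) s f

theorem sn_le_l1 (N : Seminorm ℝ (ℕ →₀ ℝ)) (hN : ∀ j, N (Finsupp.single j 1) ≤ 1)
    (x : ℕ →₀ ℝ) : N x ≤ l1 x := by
  have h1 : x = ∑ j ∈ x.support, x j • (Finsupp.single j (1 : ℝ)) := by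
    conv_lhs => rw [← Finsupp.sum_single x]
    rw [Finsupp.sum]
    refine Finset.sum_congr rfl fun j _ => ?_
    rw [Finsupp.smul_single, smul_eq_mul, mul_one]
  calc N x = N (∑ j ∈ x.support, x j • (Finsupp.single j (1 : ℝ))) := by rw [← h1]
    _ ≤ ∑ j ∈ x.support, N (x j • (Finsupp.single j (1 : ℝ))) := sn_sum_le _ _ _
    _ ≤ ∑ j ∈ x.support, |x j| := by
        refine Finset.sum_le_sum fun j _ => ?_
        rw [map_smul_eq_mul, Real.norm_eq_abs]
        exact mul_le_of_le_one_right (abs_nonneg _) (hN j)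

/-- ultralimit of a uniformly bounded family of seminorms -/
theorem exists_ulim {I : Type*} (l : Ultrafilter I) (N : I → Seminorm ℝ (ℕ →₀ ℝ))
    (hN : ∀ i j, N i (Finsupp.single j 1) ≤ 1) :
    ∃ M : Seminorm ℝ (ℕ →₀ ℝ), ∀ x, Tendsto (fun i => N i x) l (𝓝 (M x)) := by
  have key : ∀ x : ℕ →₀ ℝ, ∃ y : ℝ, Tendsto (fun i => N i x) l (𝓝 y) := by
    intro x
    have hc : IsCompact (Set.Icc (0 : ℝ) (l1 x)) := isCompact_Icc
    have hmem : (l.map (fun i => N i x) : Filter ℝ) ≤ 𝓟 (Set.Icc (0 : ℝ) (l1 x)) := by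
      rw [Filter.le_principal_iff]
      have : ∀ i, N i x ∈ Set.Icc (0 : ℝ) (l1 x) := fun i =>
        ⟨apply_nonneg _ _, sn_le_l1 (N i) (hN i) x⟩
      exact Filter.mem_map.2 (Filter.univ_mem' this)
    obtain ⟨y, _, hy⟩ := isCompact_iff_ultrafilter_le_nhds.1 hc _ hmem
    exact ⟨y, hy⟩
  choose M hM using key
  have hne : (l : Filter I).NeBot := l.neBot
  refine ⟨Seminorm.of M ?_ ?_, fun x => hM x⟩
  · intro x y
    refine le_of_tendsto_of_tendsto' (hM (x + y)) ((hM x).add (hM y)) fun i => ?_
    exact map_add_le_add _ _ _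
  · intro a x
    refine tendsto_nhds_unique (hM (a • x)) ?_
    have := (hM x).const_mul ‖a‖
    refine this.congr fun i => ?_
    rw [map_smul_eq_mul]

theorem MarkovIneq.comp {V W : Type*} [AddCommGroup V] [AddCommGroup W] {N : W → ℝ} {p K : ℝ}
    (h : MarkovIneq N p K) (L : V →+ W) : MarkovIneq (fun v => N (L v)) p K := by
  intro S _ _ π P hP f t ht
  have := h S π P hP (fun s => L (f s)) t ht
  simpa only [moment, map_sub] using this

theorem MarkovIneq.of_tendsto {V I : Type*} [AddCommGroup V] {l : Filter I} [l.NeBot]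
    {N : I → V → ℝ} {M : V → ℝ} {p K : ℝ} (hp : 0 ≤ p)
    (h : ∀ i, MarkovIneq (N i) p K) (hM : ∀ x, Tendsto (fun i => N i x) l (𝓝 (M x))) :
    MarkovIneq M p K := by
  intro S _ _ π P hP f t ht
  have hm : ∀ u : ℕ, Tendsto (fun i => moment (N i) p π P f u) l (𝓝 (moment M p π P f u)) := by
    intro u
    refine tendsto_finsetSum _ fun a _ => tendsto_finsetSum _ fun b _ => ?_
    exact ((hM _).rpow_const (Or.inr hp)).const_mul _
  exact le_of_tendsto_of_tendsto' (hm t) ((hm 1).const_mul _) fun i => h i S π P hP f t ht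

/-- prepend a value to a sequence -/
def consSeq (n : ℕ) (ψ : ℕ → ℕ) : ℕ → ℕ := fun i => if i = 0 then n else ψ (i - 1)

/-- cut a sequence after `k` values -/
def truncSeq (k : ℕ) (ψ : ℕ → ℕ) : ℕ → ℕ := fun i => if i < k then ψ i else 0

/-- iterated ultrafilter -/
noncomputable def itU (k : ℕ) : Ultrafilter (ℕ → ℕ) :=
  Nat.rec (Ultrafilter.map (fun _ : ℕ => fun _ : ℕ => 0) (hyperfilter ℕ))
    (fun _ W => (hyperfilter ℕ).bind (fun n => W.map (consSeq n))) k

theorem itU_zero : itU 0 = Ultrafilter.map (fun _ : ℕ => fun _ : ℕ => 0) (hyperfilter ℕ) := rfl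

theorem itU_succ (k : ℕ) :
    itU (k + 1) = (hyperfilter ℕ).bind (fun n => (itU k).map (consSeq n)) := rfl

theorem eventually_itU_succ (k : ℕ) (A : (ℕ → ℕ) → Prop) :
    (∀ᶠ ψ in itU (k + 1), A ψ) ↔ ∀ᶠ n in hyperfilter ℕ, ∀ᶠ ψ in itU k, A (consSeq n ψ) := by
  rw [itU_succ]
  exact Iff.rfl

theorem eventually_itU_zero (A : (ℕ → ℕ) → Prop) :
    (∀ᶠ ψ in itU 0, A ψ) ↔ A (fun _ => 0) := by
  rw [itU_zero]
  constructor
  · intro h
    have h' : ∀ᶠ _ in (hyperfilter ℕ : Filter ℕ), A (fun _ => 0) := h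
    exact h'.exists.choose_spec
  · intro h
    have h' : ∀ᶠ _ in (hyperfilter ℕ : Filter ℕ), A (fun _ => 0) := Filter.Eventually.of_forall
      fun _ => h
    exact h'

theorem hyper_gt (m : ℕ) : ∀ᶠ n in hyperfilter ℕ, m < n :=
  Nat.hyperfilter_le_atTop (Filter.eventually_gt_atTop m)

theorem itU_first (k m : ℕ) : ∀ᶠ ψ : ℕ → ℕ in (itU k : Filter (ℕ → ℕ)), 0 < k → m < ψ 0 := by
  cases k with
  | zero => exact Filter.Eventually.of_forall fun ψ h => absurd h (lt_irrefl 0)
  | succ k =>
    rw [eventually_itU_succ]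
    filter_upwards [hyper_gt m] with n hn
    refine Filter.Eventually.of_forall fun ψ _ => ?_
    simpa [consSeq] using hn

theorem itU_mono (k : ℕ) : ∀ᶠ ψ : ℕ → ℕ in (itU k : Filter (ℕ → ℕ)),
    ∀ i, i + 1 < k → ψ i < ψ (i + 1) := by
  induction k with
  | zero => exact Filter.Eventually.of_forall fun ψ i h => absurd h (Nat.not_lt_zero _)
  | succ k ih =>
    rw [eventually_itU_succ]
    refine Filter.Eventually.of_forall fun n => ?_
    filter_upwards [ih, itU_first k n] with ψ h1 h2 i hi
    rcases i with _ | i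
    · have : 0 < k := by omega
      simpa [consSeq] using h2 this
    · have : i + 1 < k := by omega
      simpa only [consSeq, Nat.add_eq_zero_iff, one_ne_zero, and_false, ↓reduceIte, add_tsub_cancel_right, and_self,     gt_iff_lt] using h1 i this

theorem itU_spread (K : ℕ) : ∀ (k : ℕ) (φ : ℕ → ℕ), (∀ i, i < k → φ i < K) →
    (∀ i, i + 1 < k → φ i < φ (i + 1)) → ∀ A : (ℕ → ℕ) → Prop,
    (∀ᶠ ψ in itU K, A (truncSeq k (ψ ∘ φ))) ↔ ∀ᶠ ψ in itU k, A ψ := by
  induction K with
  | zero =>
    intro k φ h1 _ A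
    have hk : k = 0 := by
      by_contra hk
      exact absurd (h1 0 (Nat.pos_of_ne_zero hk)) (Nat.not_lt_zero _)
    subst hk
    rw [eventually_itU_zero, eventually_itU_zero]
    have : truncSeq 0 ((fun _ => 0) ∘ φ) = fun _ => 0 := by
      funext i; simp [truncSeq]
    rw [this]
  | succ K ih =>
    intro k φ h1 h2 A
    rw [eventually_itU_succ]
    rcases Nat.eq_zero_or_pos k with hk | hk
    · subst hk
      rw [eventually_itU_zero]
      have : ∀ ψ : ℕ → ℕ, truncSeq 0 (ψ ∘ φ) = fun _ => 0 := by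
        intro ψ; funext i; simp [truncSeq]
      simp only [this]
      constructor
      · intro h
        obtain ⟨n, hn⟩ := h.exists
        exact hn.exists.choose_spec
      · intro h
        exact Filter.Eventually.of_forall fun _ => Filter.Eventually.of_forall fun _ => h
    · obtain ⟨k, rfl⟩ : ∃ j, k = j + 1 := ⟨k - 1, by omega⟩
      have hmono : ∀ i, i < k + 1 → φ 0 + i ≤ φ i := by
        intro i
        induction i with
        | zero => intro _; simp
        | succ i ihi =>
          intro hi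
          have := ihi (by omega)
          have := h2 i (by omega)
          omega
      rcases Nat.eq_zero_or_pos (φ 0) with h0 | h0
      · rw [eventually_itU_succ]
        refine Filter.eventually_congr (Filter.Eventually.of_forall fun n => ?_)
        have := ih k (fun i => φ (i + 1) - 1) (fun i hi => ?_) (fun i hi => ?_)
          (fun ψ => A (consSeq n ψ))
        · rw [← this]
          refine Filter.eventually_congr (Filter.Eventually.of_forall fun ψ => ?_)
          have e : truncSeq (k + 1) (consSeq n ψ ∘ φ) =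
              consSeq n (truncSeq k (ψ ∘ fun i => φ (i + 1) - 1)) := by
            funext i
            rcases i with _ | i
            · simp only [truncSeq, lt_add_iff_pos_left, Order.lt_add_one_iff, zero_le, ↓reduceIte, Function.comp_apply, consSeq, h0]
            · by_cases hi : i < k
              · have h3 := hmono (i + 1) (by omega)
                have h4 : φ (i + 1) ≠ 0 := by omega
                simp only [truncSeq, Order.lt_add_one_iff, Order.add_one_le_iff, hi, ↓reduceIte, Function.comp_apply, consSeq, h4, Nat.add_eq_zero_iff, one_ne_zero, and_false, add_tsub_cancel_right]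
              · simp only [truncSeq, Order.lt_add_one_iff, Order.add_one_le_iff, hi, ↓reduceIte, consSeq, Nat.add_eq_zero_iff, one_ne_zero, and_false, add_tsub_cancel_right]
          rw [e]
        · have h3 := h1 (i + 1) (by omega)
          have h4 := hmono (i + 1) (by omega)
          show φ (i + 1) - 1 < K
          omega
        · have h3 := h2 (i + 1) (by omega)
          have h4 := hmono (i + 1) (by omega)
          show φ (i + 1) - 1 < φ (i + 1 + 1) - 1
          omega
      · have := ih (k + 1) (fun i => φ i - 1) (fun i hi => ?_) (fun i hi => ?_) A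
        · rw [← this]
          have e : ∀ n (ψ : ℕ → ℕ), truncSeq (k + 1) (consSeq n ψ ∘ φ) =
              truncSeq (k + 1) (ψ ∘ fun i => φ i - 1) := by
            intro n ψ
            funext i
            by_cases hi : i < k + 1
            · have h3 := hmono i hi
              have h4 : φ i ≠ 0 := by omega
              simp only [truncSeq, hi, ↓reduceIte, Function.comp_apply, consSeq, h4]
            · simp [truncSeq, hi]
          simp only [e]
          exact ⟨fun h => h.exists.choose_spec, fun h => Filter.Eventually.of_forall fun _ => h⟩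
        · have h3 := h1 i hi
          have h4 := hmono i hi
          show φ i - 1 < K
          omega
        · have h3 := h2 i hi
          have h4 := hmono i (by omega)
          show φ i - 1 < φ (i + 1) - 1
          omega

/-- existence of the support bound -/
theorem exists_supp_lt (x : ℕ →₀ ℝ) : ∃ k, ∀ j ∈ x.support, j < k :=
  ⟨x.support.sup id + 1, fun _ hj => Nat.lt_succ_of_le (Finset.le_sup (f := id) hj)⟩

theorem mapDomain_congr_lt {x : ℕ →₀ ℝ} {k : ℕ} (hx : ∀ j ∈ x.support, j < k) {f g : ℕ → ℕ}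
    (h : ∀ i, i < k → f i = g i) : x.mapDomain f = x.mapDomain g :=
  Finsupp.mapDomain_congr fun j hj => h j (hx j hj)

/-- the tail sum as a linear functional -/
noncomputable def tl (r : ℕ) : (ℕ →₀ ℝ) →ₗ[ℝ] ℝ :=
  Finsupp.linearCombination ℝ (fun j : ℕ => if r ≤ j then (1 : ℝ) else 0)

theorem tl_single (r j : ℕ) (a : ℝ) : tl r (Finsupp.single j a) = if r ≤ j then a else 0 := by
  rw [tl, Finsupp.linearCombination_single, smul_eq_mul]
  split_ifs <;> simp

theorem tailSum_eq (x : ℕ →₀ ℝ) (r : ℕ) : tailSum x r = tl r x := by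
  rw [tl, Finsupp.linearCombination_apply, Finsupp.sum, tailSum, Finset.sum_filter]
  refine Finset.sum_congr rfl fun j _ => ?_
  rw [smul_eq_mul]
  split_ifs <;> simp

theorem tl_eq_sum (x : ℕ →₀ ℝ) (r : ℕ) :
    tl r x = ∑ j ∈ x.support, if r ≤ j then x j else 0 := by
  rw [← tailSum_eq, tailSum, Finset.sum_filter]

theorem tl_mapDomain (x : ℕ →₀ ℝ) (ψ : ℕ → ℕ) (r : ℕ) :
    tl r (x.mapDomain ψ) = ∑ j ∈ x.support, if r ≤ ψ j then x j else 0 := by
  rw [Finsupp.mapDomain, Finsupp.sum, map_sum]
  exact Finset.sum_congr rfl fun j _ => tl_single _ _ _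

/-- composition with `mapDomain ψ` as a seminorm -/
noncomputable def mapSn (N : Seminorm ℝ (ℕ →₀ ℝ)) (ψ : ℕ → ℕ) : Seminorm ℝ (ℕ →₀ ℝ) :=
  N.comp (Finsupp.lmapDomain ℝ ℝ ψ)

theorem mapSn_apply (N : Seminorm ℝ (ℕ →₀ ℝ)) (ψ : ℕ → ℕ) (x : ℕ →₀ ℝ) :
    mapSn N ψ x = N (x.mapDomain ψ) := rfl

theorem strictMonoOn_lt {ψ : ℕ → ℕ} {k : ℕ} (h : ∀ i, i + 1 < k → ψ i < ψ (i + 1)) :
    ∀ i j, i ≤ j → j < k → ψ i ≤ ψ j := by
  intro i j hij
  induction j, hij using Nat.le_induction with
  | base => intro _; exact le_rfl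
  | succ j hj ih => intro hk; exact (ih (by omega)).trans (h j hk).le

theorem strictMonoOn_lt' {ψ : ℕ → ℕ} {k : ℕ} (h : ∀ i, i + 1 < k → ψ i < ψ (i + 1)) :
    ∀ i j, i < j → j < k → ψ i < ψ j := by
  intro i j hij hjk
  exact lt_of_lt_of_le (h i (by omega)) (strictMonoOn_lt h (i + 1) j hij hjk)

theorem exists_spreading {p K θ : ℝ} (hp : 0 ≤ p) (N : Seminorm ℝ (ℕ →₀ ℝ))
    (h1 : ∀ j, N (Finsupp.single j 1) ≤ 1) (h2 : ∀ x r, θ * |tailSum x r| ≤ N x)
    (h3 : MarkovIneq (fun x => N x) p K) :
    ∃ M : Seminorm ℝ (ℕ →₀ ℝ), (∀ j, M (Finsupp.single j 1) ≤ 1) ∧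
      (∀ x r, θ * |tailSum x r| ≤ M x) ∧ MarkovIneq (fun x => M x) p K ∧
      ∀ ψ : ℕ → ℕ, StrictMono ψ → ∀ x : ℕ →₀ ℝ, M (x.mapDomain ψ) = M x := by
  have hmap : ∀ (ψ : ℕ → ℕ) j, mapSn N ψ (Finsupp.single j 1) ≤ 1 := by
    intro ψ j
    rw [mapSn_apply, Finsupp.mapDomain_single]
    exact h1 _
  have hk : ∀ k : ℕ, ∃ M : Seminorm ℝ (ℕ →₀ ℝ),
      ∀ x, Tendsto (fun ψ => mapSn N ψ x) (itU k) (𝓝 (M x)) := fun k =>
    exists_ulim (itU k) (mapSn N) hmap
  choose Mk hMk using hk
  have hle1 : ∀ k j, Mk k (Finsupp.single j 1) ≤ 1 := fun k j =>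
    le_of_tendsto' (hMk k _) fun ψ => hmap ψ j
  have hmark : ∀ k, MarkovIneq (fun x => Mk k x) p K := by
    intro k
    refine MarkovIneq.of_tendsto (l := (itU k : Filter (ℕ → ℕ))) (N := fun ψ x => mapSn N ψ x)
      hp (fun ψ => ?_) (hMk k)
    exact h3.comp (Finsupp.lmapDomain ℝ ℝ ψ : (ℕ →₀ ℝ) →ₗ[ℝ] (ℕ →₀ ℝ)).toAddMonoidHom
  -- spreadability at finite level
  have hsp : ∀ (k L : ℕ) (φ : ℕ → ℕ), (∀ i, i < k → φ i < L) →
      (∀ i, i + 1 < k → φ i < φ (i + 1)) → ∀ x : ℕ →₀ ℝ, (∀ j ∈ x.support, j < k) →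
      Mk L (x.mapDomain φ) = Mk k x := by
    intro k L φ hφ1 hφ2 x hx
    refine tendsto_nhds_unique (hMk L (x.mapDomain φ)) ?_
    have e : (fun ψ => mapSn N ψ (x.mapDomain φ)) =
        fun ψ : ℕ → ℕ => mapSn N (truncSeq k (ψ ∘ φ)) x := by
      funext ψ
      rw [mapSn_apply, mapSn_apply, ← Finsupp.mapDomain_comp]
      congr 1
      exact mapDomain_congr_lt hx fun i hi => by simp [truncSeq, hi]
    rw [e]
    intro s hs
    have h5 := hMk k x hs
    exact (itU_spread L k φ hφ1 hφ2 (fun ψ => mapSn N ψ x ∈ s)).2 h5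
  obtain ⟨M, hM⟩ := exists_ulim (hyperfilter ℕ) Mk hle1
  have hMeq : ∀ (k : ℕ) (x : ℕ →₀ ℝ), (∀ j ∈ x.support, j < k) → M x = Mk k x := by
    intro k x hx
    refine tendsto_nhds_unique (hM x) ?_
    refine Tendsto.congr' ?_ tendsto_const_nhds
    filter_upwards [hyper_gt k] with L hL
    have := hsp k L id (fun i hi => lt_trans hi hL) (fun i _ => Nat.lt_succ_self i) x hx
    rw [Finsupp.mapDomain_id] at this
    exact this.symm
  refine ⟨M, fun j => le_of_tendsto' (hM _) fun k => hle1 k j, ?_,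
    MarkovIneq.of_tendsto (l := (hyperfilter ℕ : Filter ℕ)) (N := fun k x => Mk k x) hp hmark hM,
    ?_⟩
  · intro x r
    obtain ⟨k, hx⟩ := exists_supp_lt x
    rw [hMeq k x hx]
    refine ge_of_tendsto (hMk k x) ?_
    filter_upwards [itU_mono k] with ψ hψ
    rw [mapSn_apply]
    rw [tailSum_eq, tl_eq_sum]
    by_cases hr : r < k
    · have h6 := h2 (x.mapDomain ψ) (ψ r)
      rw [tailSum_eq, tl_mapDomain] at h6
      have e : (∑ j ∈ x.support, if ψ r ≤ ψ j then x j else 0) =
          ∑ j ∈ x.support, if r ≤ j then x j else 0 := by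
        refine Finset.sum_congr rfl fun j hj => ?_
        have hjk := hx j hj
        have : ψ r ≤ ψ j ↔ r ≤ j := by
          constructor
          · intro h
            by_contra hc
            have := strictMonoOn_lt' hψ j r (by omega) hr
            omega
          · intro h
            exact strictMonoOn_lt hψ r j h hjk
        simp only [this]
      rw [e] at h6
      exact h6
    · have e : (∑ j ∈ x.support, if r ≤ j then x j else 0) = 0 := by
        refine Finset.sum_eq_zero fun j hj => ?_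
        have := hx j hj
        rw [if_neg (by omega)]
      rw [e, abs_zero, mul_zero]
      exact apply_nonneg _ _
  · intro ψ hψ x
    obtain ⟨k, hx⟩ := exists_supp_lt x
    have hx' : ∀ j ∈ (x.mapDomain ψ).support, j < ψ k := by
      intro j hj
      have := Finsupp.mapDomain_support hj
      obtain ⟨i, hi, rfl⟩ := Finset.mem_image.1 this
      exact hψ (hx i hi)
    rw [hMeq k x hx, hMeq (ψ k) _ hx']
    exact hsp k (ψ k) ψ (fun i hi => hψ hi) (fun i _ => hψ (Nat.lt_succ_self i)) x hx

/-- replace `e_i` by the average of the `Q` unit vectors of the block `[iQ, iQ + Q)` -/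
noncomputable def blk (Q : ℕ) : (ℕ →₀ ℝ) →ₗ[ℝ] (ℕ →₀ ℝ) :=
  Finsupp.linearCombination ℝ
    (fun i : ℕ => (1 / (Q : ℝ)) • ∑ l ∈ range Q, Finsupp.single (i * Q + l) (1 : ℝ))

theorem blk_single (Q i : ℕ) : blk Q (Finsupp.single i 1) =
    (1 / (Q : ℝ)) • ∑ l ∈ range Q, Finsupp.single (i * Q + l) (1 : ℝ) := by
  rw [blk, Finsupp.linearCombination_single, one_smul]

theorem mapDomain_eq_sum (x : ℕ →₀ ℝ) (ψ : ℕ → ℕ) :
    x.mapDomain ψ = ∑ j ∈ x.support, x j • (Finsupp.single (ψ j) (1 : ℝ)) := by
  rw [Finsupp.mapDomain, Finsupp.sum]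
  refine Finset.sum_congr rfl fun j _ => ?_
  rw [Finsupp.smul_single, smul_eq_mul, mul_one]

theorem shift_identity {V : Type*} [AddCommGroup V] (f : ℕ → V) (Q i : ℕ) :
    ∑ l ∈ range Q, f l = ∑ h ∈ range Q, f (i + h) + (∑ l ∈ range i, f l -
      ∑ l ∈ range i, f (Q + l)) := by
  have h1 := Finset.sum_range_add f i Q
  have h2 := Finset.sum_range_add f Q i
  rw [add_comm Q i] at h2
  rw [h1] at h2
  have h3 : ∑ l ∈ range Q, f l =
      (∑ l ∈ range i, f l + ∑ h ∈ range Q, f (i + h)) - ∑ l ∈ range i, f (Q + l) := by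
    rw [h2]; abel
  rw [h3]; abel

theorem sn_blk_mapDomain_le (N : Seminorm ℝ (ℕ →₀ ℝ)) (h1 : ∀ j, N (Finsupp.single j 1) ≤ 1)
    (hsp : ∀ ψ : ℕ → ℕ, StrictMono ψ → ∀ x : ℕ →₀ ℝ, N (x.mapDomain ψ) = N x)
    {β : ℕ → ℕ} (hβ : Monotone β) (y : ℕ →₀ ℝ) {Q : ℕ} (hQ : 0 < Q) :
    N (blk Q (y.mapDomain β)) ≤ N y + (1 / (Q : ℝ)) * ∑ i ∈ y.support, |y i| * (2 * i) := by
  have hQ' : (0 : ℝ) < Q := by exact_mod_cast hQ
  have hQi : (0 : ℝ) ≤ 1 / (Q : ℝ) := by positivity
  set τ : ℕ → ℕ → ℕ := fun h i => β i * Q + (i + h) with hτ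
  have hτm : ∀ h, StrictMono (τ h) := by
    intro h i j hij
    have := Nat.mul_le_mul_right Q (hβ hij.le)
    simp only [hτ]
    omega
  set g : ℕ → ℕ → (ℕ →₀ ℝ) := fun i l => Finsupp.single (β i * Q + l) (1 : ℝ) with hg
  have hgN : ∀ i l, N (g i l) ≤ 1 := fun i l => h1 _
  have e1 : blk Q (y.mapDomain β) =
      ∑ i ∈ y.support, y i • ((1 / (Q : ℝ)) • ∑ l ∈ range Q, g i l) := by
    rw [mapDomain_eq_sum, map_sum]
    refine Finset.sum_congr rfl fun i _ => ?_
    rw [map_smul, blk_single]
  have e2 : ∀ i, ∑ l ∈ range Q, g i l = ∑ h ∈ range Q, Finsupp.single (τ h i) (1 : ℝ) +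
      (∑ l ∈ range i, g i l - ∑ l ∈ range i, g i (Q + l)) := fun i =>
    shift_identity (g i) Q i
  have e3 : blk Q (y.mapDomain β) = (1 / (Q : ℝ)) • ∑ h ∈ range Q, y.mapDomain (τ h) +
      ∑ i ∈ y.support, y i • ((1 / (Q : ℝ)) •
        (∑ l ∈ range i, g i l - ∑ l ∈ range i, g i (Q + l))) := by
    rw [e1]
    have : ∑ h ∈ range Q, y.mapDomain (τ h) =
        ∑ i ∈ y.support, y i • ∑ h ∈ range Q, Finsupp.single (τ h i) (1 : ℝ) := by
      simp only [Finset.smul_sum]
      rw [Finset.sum_comm]
      exact Finset.sum_congr rfl fun h _ => mapDomain_eq_sum _ _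
    rw [this, Finset.smul_sum, ← Finset.sum_add_distrib]
    refine Finset.sum_congr rfl fun i _ => ?_
    rw [e2 i, smul_comm (1 / (Q : ℝ)) (y i), ← smul_add, ← smul_add]
  rw [e3]
  refine (map_add_le_add N _ _).trans (add_le_add ?_ ?_)
  · rw [map_smul_eq_mul, Real.norm_eq_abs, abs_of_nonneg hQi]
    have : N (∑ h ∈ range Q, y.mapDomain (τ h)) ≤ Q * N y := by
      refine (sn_sum_le N _ _).trans ?_
      rw [Finset.sum_congr rfl fun h _ => hsp (τ h) (hτm h) y, Finset.sum_const, card_range,
        nsmul_eq_mul]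
    calc 1 / (Q : ℝ) * N (∑ h ∈ range Q, y.mapDomain (τ h)) ≤ 1 / (Q : ℝ) * (Q * N y) :=
          mul_le_mul_of_nonneg_left this hQi
      _ = N y := by field_simp
  · refine (sn_sum_le N _ _).trans ?_
    rw [Finset.mul_sum]
    refine Finset.sum_le_sum fun i _ => ?_
    rw [map_smul_eq_mul, map_smul_eq_mul, Real.norm_eq_abs, Real.norm_eq_abs,
      abs_of_nonneg hQi]
    have h5 : N (∑ l ∈ range i, g i l - ∑ l ∈ range i, g i (Q + l)) ≤ 2 * i := by
      refine (map_sub_le_add N _ _).trans ?_
      have h6 : N (∑ l ∈ range i, g i l) ≤ i := by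
        refine (sn_sum_le N _ _).trans ((Finset.sum_le_sum fun l _ => hgN i l).trans ?_)
        simp
      have h7 : N (∑ l ∈ range i, g i (Q + l)) ≤ i := by
        refine (sn_sum_le N _ _).trans ((Finset.sum_le_sum fun l _ => hgN i (Q + l)).trans ?_)
        simp
      linarith only [h6, h7]
    calc |y i| * (1 / (Q : ℝ) * N (∑ l ∈ range i, g i l - ∑ l ∈ range i, g i (Q + l)))
        ≤ |y i| * (1 / (Q : ℝ) * (2 * i)) :=
          mul_le_mul_of_nonneg_left (mul_le_mul_of_nonneg_left h5 hQi) (abs_nonneg _)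
      _ = 1 / (Q : ℝ) * (|y i| * (2 * i)) := by ring

theorem mapDomain_blk {m : ℕ} (hm : 0 < m) (α : ℕ → ℕ) (x : ℕ →₀ ℝ) :
    (blk m x).mapDomain (fun j => α (j / m)) = x.mapDomain α := by
  have hm' : (m : ℝ) ≠ 0 := by exact_mod_cast hm.ne'
  have h : (Finsupp.lmapDomain ℝ ℝ (fun j => α (j / m)) : (ℕ →₀ ℝ) →ₗ[ℝ] (ℕ →₀ ℝ)).comp (blk m)
      = Finsupp.lmapDomain ℝ ℝ α := by
    refine Finsupp.lhom_ext' fun i => LinearMap.ext_ring ?_
    simp only [LinearMap.comp_apply, Finsupp.lsingle_apply]
    rw [blk_single, map_smul, map_sum, Finsupp.lmapDomain_apply, Finsupp.mapDomain_single]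
    have : ∀ l ∈ range m, (Finsupp.lmapDomain ℝ ℝ (fun j => α (j / m)))
        (Finsupp.single (i * m + l) (1 : ℝ)) = Finsupp.single (α i) (1 : ℝ) := by
      intro l hl
      rw [Finsupp.lmapDomain_apply, Finsupp.mapDomain_single]
      have : (i * m + l) / m = i := by
        rw [mul_comm, Nat.mul_add_div hm, Nat.div_eq_of_lt (Finset.mem_range.1 hl), add_zero]
      rw [this]
    rw [Finset.sum_congr rfl this, Finset.sum_const, card_range, ← Nat.cast_smul_eq_nsmul ℝ,
      smul_smul, one_div, inv_mul_cancel₀ hm', one_smul]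
  have := congrArg (fun L => L x) h
  exact this

theorem tl_blk {Q : ℕ} (hQ : 0 < Q) (r : ℕ) (x : ℕ →₀ ℝ) : tl (r * Q) (blk Q x) = tl r x := by
  have hQ' : (Q : ℝ) ≠ 0 := by exact_mod_cast hQ.ne'
  have h : (tl (r * Q)).comp (blk Q) = tl r := by
    refine Finsupp.lhom_ext' fun i => LinearMap.ext_ring ?_
    simp only [LinearMap.comp_apply, Finsupp.lsingle_apply]
    rw [blk_single, map_smul, map_sum, tl_single]
    have : ∀ l ∈ range Q, tl (r * Q) (Finsupp.single (i * Q + l) (1 : ℝ)) =
        if r ≤ i then 1 else 0 := by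
      intro l hl
      rw [tl_single]
      have hl' := Finset.mem_range.1 hl
      have : r * Q ≤ i * Q + l ↔ r ≤ i := by
        constructor
        · intro h
          by_contra hc
          have h3 : (i + 1) * Q ≤ r * Q := Nat.mul_le_mul_right Q (by omega)
          have h4 : (i + 1) * Q = i * Q + Q := by ring
          omega
        · intro h
          exact (Nat.mul_le_mul_right Q h).trans (Nat.le_add_right _ _)
      simp only [this]
    rw [Finset.sum_congr rfl this, Finset.sum_const, card_range, nsmul_eq_mul, smul_eq_mul]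
    field_simp
  exact congrArg (fun L => L x) h

/-- composition with the block average -/
noncomputable def blkSn (N : Seminorm ℝ (ℕ →₀ ℝ)) (Q : ℕ) : Seminorm ℝ (ℕ →₀ ℝ) :=
  N.comp (blk Q)

theorem blkSn_apply (N : Seminorm ℝ (ℕ →₀ ℝ)) (Q : ℕ) (x : ℕ →₀ ℝ) :
    blkSn N Q x = N (blk Q x) := rfl

theorem exists_monotone_sn {p K θ : ℝ} (hp : 0 ≤ p) (N : Seminorm ℝ (ℕ →₀ ℝ))
    (h1 : ∀ j, N (Finsupp.single j 1) ≤ 1) (h2 : ∀ x r, θ * |tailSum x r| ≤ N x)
    (h3 : MarkovIneq (fun x => N x) p K)
    (hsp : ∀ ψ : ℕ → ℕ, StrictMono ψ → ∀ x : ℕ →₀ ℝ, N (x.mapDomain ψ) = N x) :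
    ∃ M : Seminorm ℝ (ℕ →₀ ℝ), (∀ j, M (Finsupp.single j 1) ≤ 1) ∧
      (∀ x r, θ * |tailSum x r| ≤ M x) ∧ MarkovIneq (fun x => M x) p K ∧
      ∀ α : ℕ → ℕ, Monotone α → ∀ x : ℕ →₀ ℝ, M (x.mapDomain α) ≤ M x := by
  have hle : ∀ Q j, blkSn N Q (Finsupp.single j 1) ≤ 1 := by
    intro Q j
    rw [blkSn_apply, blk_single, map_smul_eq_mul, Real.norm_eq_abs, abs_of_nonneg (by (clear * -; positivity))]
    rcases Nat.eq_zero_or_pos Q with hQ | hQ
    · subst hQ; simp
    · have hQ' : (0 : ℝ) < Q := by exact_mod_cast hQ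
      have : N (∑ l ∈ range Q, Finsupp.single (j * Q + l) (1 : ℝ)) ≤ Q := by
        refine (sn_sum_le N _ _).trans ((Finset.sum_le_sum fun l _ => h1 (j * Q + l)).trans ?_)
        simp
      calc 1 / (Q : ℝ) * N (∑ l ∈ range Q, Finsupp.single (j * Q + l) (1 : ℝ)) ≤
            1 / (Q : ℝ) * Q := mul_le_mul_of_nonneg_left this (by positivity)
        _ = 1 := by field_simp
  obtain ⟨M, hM⟩ := exists_ulim (hyperfilter ℕ) (blkSn N) hle
  refine ⟨M, fun j => le_of_tendsto' (hM _) fun Q => hle Q j, ?_, ?_, ?_⟩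
  · intro x r
    refine ge_of_tendsto (hM x) ?_
    filter_upwards [hyper_gt 0] with Q hQ
    rw [blkSn_apply]
    have := h2 (blk Q x) (r * Q)
    rwa [tailSum_eq, tl_blk hQ, ← tailSum_eq] at this
  · refine MarkovIneq.of_tendsto (l := (hyperfilter ℕ : Filter ℕ))
      (N := fun Q x => blkSn N Q x) hp (fun Q => ?_) hM
    exact h3.comp (blk Q).toAddMonoidHom
  · intro α hα x
    have key : ∀ m, 0 < m → M (x.mapDomain α) ≤ N (blk m x) := by
      intro m hm
      set y := blk m x with hy
      set C := ∑ i ∈ y.support, |y i| * (2 * (i : ℝ)) with hC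
      have hβ : Monotone (fun j => α (j / m)) := fun i j hij => hα (Nat.div_le_div_right hij)
      have hlim : Tendsto (fun Q : ℕ => N y + (1 / (Q : ℝ)) * C) (hyperfilter ℕ : Filter ℕ)
          (𝓝 (N y + 0 * C)) := by
        refine Tendsto.mono_left ?_ Nat.hyperfilter_le_atTop
        exact tendsto_const_nhds.add (tendsto_one_div_atTop_nhds_zero_nat.mul_const C)
      rw [zero_mul, add_zero] at hlim
      refine le_of_tendsto_of_tendsto (hM _) hlim ?_
      filter_upwards [hyper_gt 0] with Q hQ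
      rw [blkSn_apply, ← mapDomain_blk hm α x]
      exact sn_blk_mapDomain_le N h1 hsp hβ y hQ
    refine ge_of_tendsto (hM x) ?_
    filter_upwards [hyper_gt 0] with m hm
    exact key m hm

/-- The module statement: from a seminorm with lower bound by tail sums to one which is
monotone under all monotone maps of the index set. -/
theorem exists_monotone_seminorm {p K θ : ℝ} (hp : 0 ≤ p) (N : Seminorm ℝ (ℕ →₀ ℝ))
    (h1 : ∀ j, N (Finsupp.single j 1) ≤ 1) (h2 : ∀ x r, θ * |tailSum x r| ≤ N x)
    (h3 : MarkovIneq (fun x => N x) p K) :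
    ∃ M : Seminorm ℝ (ℕ →₀ ℝ), (∀ j, M (Finsupp.single j 1) ≤ 1) ∧
      (∀ x r, θ * |tailSum x r| ≤ M x) ∧ MarkovIneq (fun x => M x) p K ∧
      ∀ α : ℕ → ℕ, Monotone α → ∀ x : ℕ →₀ ℝ, M (x.mapDomain α) ≤ M x := by
  obtain ⟨N1, a1, a2, a3, a4⟩ := exists_spreading hp N h1 h2 h3
  exact exists_monotone_sn hp N1 a1 a2 a3 a4

/-- Local version: a family of seminorms whose lower bounds hold on longer and longer initial
segments. -/
theorem exists_monotone_seminorm_of_local {p K θ : ℝ} (hp : 0 ≤ p)
    (h : ∀ k : ℕ, ∃ M : Seminorm ℝ (ℕ →₀ ℝ), (∀ j, M (Finsupp.single j 1) ≤ 1) ∧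
      (∀ x : ℕ →₀ ℝ, (∀ j ∈ x.support, j < k) → ∀ r, θ * |tailSum x r| ≤ M x) ∧
      MarkovIneq (fun x => M x) p K) :
    ∃ M : Seminorm ℝ (ℕ →₀ ℝ), (∀ j, M (Finsupp.single j 1) ≤ 1) ∧
      (∀ x r, θ * |tailSum x r| ≤ M x) ∧ MarkovIneq (fun x => M x) p K ∧
      ∀ α : ℕ → ℕ, Monotone α → ∀ x : ℕ →₀ ℝ, M (x.mapDomain α) ≤ M x := by
  choose Mk b1 b2 b3 using h
  obtain ⟨N, hN⟩ := exists_ulim (hyperfilter ℕ) Mk b1
  refine exists_monotone_seminorm hp N (fun j => le_of_tendsto' (hN _) fun k => b1 k j) ?_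
    (MarkovIneq.of_tendsto (l := (hyperfilter ℕ : Filter ℕ)) (N := fun k x => Mk k x) hp b3 hN)
  intro x r
  obtain ⟨k, hx⟩ := exists_supp_lt x
  refine ge_of_tendsto (hN x) ?_
  filter_upwards [hyper_gt k] with L hL
  exact b2 L x (fun j hj => lt_trans (hx j hj) hL) r

/-- Version starting from a James family. -/
theorem exists_mono_of_family {p K θ : ℝ} (hp : 1 < p) (h : JamesFamily p K θ) :
    ∃ ν : Seminorm ℝ (ℕ →₀ ℝ),
      (∀ α : ℕ → ℕ, Monotone α → ∀ x : ℕ →₀ ℝ, ν (x.mapDomain α) ≤ ν x) ∧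
      θ ≤ ν (Finsupp.single 0 1 - Finsupp.single 1 1) ∧
      MarkovIneq (fun x => ν x) p K := by
  obtain ⟨N, -, a2, a3, a4⟩ := exists_monotone_seminorm_of_local (by linarith) h
  refine ⟨N, a4, ?_, a3⟩
  have h := a2 (Finsupp.single 0 1 - Finsupp.single 1 1) 1
  rw [tailSum_eq, map_sub, tl_single, tl_single] at h
  simpa only [ge_iff_le, nonpos_iff_eq_zero, one_ne_zero, ↓reduceIte, Std.le_refl, zero_sub, abs_neg, abs_one,     mul_one] using h

end P125
end
end

section

section

/-!
# P125 : assembly of the main theorem from the core statement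
-/

namespace P125

/-- The core statement: no merging-contractive non-trivial seminorm on finitely supported
sequences satisfies a Markov type inequality with exponent `p > 1`. -/
def CoreStatement : Prop :=
  ∀ (p K : ℝ), 1 < p → 0 ≤ K → ∀ ν : Seminorm ℝ (ℕ →₀ ℝ),
    (∀ α : ℕ → ℕ, Monotone α → ∀ x : ℕ →₀ ℝ, ν (x.mapDomain α) ≤ ν x) →
    0 < ν (Finsupp.single 0 1 - Finsupp.single 1 1) →
    MarkovIneq (fun x => ν x) p K → False

theorem main_of_core (core : CoreStatement) {X : Type*} [NormedAddCommGroup X]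
    [NormedSpace ℝ X] {p : ℝ} (hp : 1 < p) (h : HasMarkovType X p) :
    Superreflexive X ∧ ∃ N : Seminorm ℝ X, EquivalentNorm N ∧ UniformlySmoothNorm N := by
  obtain ⟨-, K, hK, hX⟩ := h
  have hcore : ∀ θ : ℝ, 0 < θ → ¬ JamesFamily p K θ := by
    intro θ hθ hJ
    obtain ⟨ν, h1, h2, h3⟩ := exists_mono_of_family hp hJ
    exact core p K hp hK ν h1 (lt_of_lt_of_le hθ h2) h3
  exact ⟨superreflexive_of_JBound (normingPairing_primal X) (jbound_primal hp hX hcore),
    smooth_of_dual (superreflexive_of_JBound (normingPairing_dual X) (jbound_dual hp hX hcore))⟩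

end P125
end
end

section

section

namespace P125

theorem boxStatement : BoxStatement := by
  intro Z _ _ _ d T D B hB η hη
  exact box_extension T D B hB hη

theorem lemmaAStatement : LemmaAStatement := by
  intro d M hd η hη
  obtain ⟨n, hn, a, T, h1, h2, h3⟩ := lemmaA_gen d (2 * M - 1) (fun s q => cidx d s q)
    (fun s q => cidx d s (q + 1)) (fun s => cidx_lt hd)
    (fun s => (cidx_lt hd).comp (strictMono_nat_of_lt_succ fun q => Nat.lt_succ_self _)) η hη
  refine ⟨n, hn, a, T, h1, h2, ?_⟩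
  intro s z z' h q hq
  exact h3 s z z' h q (by omega)

theorem coreStatement : CoreStatement := by
  intro p K hp hK ν h1 h2 h3
  exact core_mono_of lemmaAStatement boxStatement hp hK ν h1 h2 h3

end P125
end
end

section

section

/-!
# P125 : nontrivial Markov type implies superreflexivity
-/

namespace P125

/-- Every real normed space with Markov type `p > 1` is superreflexive. -/
theorem superreflexive_of_hasMarkovType {X : Type*} [NormedAddCommGroup X] [NormedSpace ℝ X]
    {p : ℝ} (hp : 1 < p) (h : HasMarkovType X p) :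
    Superreflexive X ∧ ∃ N : Seminorm ℝ X, EquivalentNorm N ∧ UniformlySmoothNorm N :=
  main_of_core coreStatement hp h

end P125
end
end
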